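import Vale.Agent.P022G.Pt.Defs2

/-!
# P022G, patching at a curve: the hypotheses, final form (`𝔱` is not part of the equations)
-/

set_option linter.all false

open IsLocalRing Filter

noncomputable section

namespace Vale.Agent.P022G.Pt

open Vale.Agent.P022D.PA
open Vale.Agent.P022D.Core (ty)

section
variable {P S₀ S L κ : Type} [CommRing P] [CommRing S₀] [CommRing S] [Algebra S₀ S] [Fintype L]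
  (X : RD P S₀ S L κ)

/-- primes of `S` inside the curve on which all equations hold -/
structure RD.Pn (𝔮 : Ideal S) : Prop where
  pr : 𝔮.IsPrime
  le : 𝔮 ≤ X.𝔭
  E : X.E.map (algebraMap S₀ S) ≤ 𝔮
  r : X.𝔯 ≤ 𝔮
  a : X.𝔞.map X.ψ ≤ 𝔮
  t : X.𝔱 ≤ 𝔮

/-- **the hypotheses on the rings** -/
structure RD.Ok3 : Prop where
  pr : X.𝔭.IsPrime
  cov : Cov S₀ S X.y X.α X.β X.𝔯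
  tp : X.𝔱 ≤ X.𝔭
  ep : X.𝔢 ≤ X.p0
  pi : X.ψ X.π = algebraMap S₀ S X.π₀
  pur : Pur X.ψ X.𝔞 X.𝔱 X.𝔭
  tf : Tf X.ψ X.𝔞 X.𝔱 X.𝔭 X.π
  up : ∀ η : Ideal P, η.IsPrime → X.𝔞 ≤ η → η ≤ X.p0 → X.π ∈ η →
    ∃ η' : Ideal S, η'.IsPrime ∧ η' ≤ X.𝔭 ∧ η.map X.ψ ⊔ X.𝔱 ≤ η' ∧
      ((X.a : ℕ) : WithBot ℕ∞) + ringKrullDim (P ⧸ η) ≤ ringKrullDim (S ⧸ η')
  gal0 : X.Gal X.E X.𝔢
  y0 : ∀ 𝔮, X.Pn 𝔮 → X.𝔢.map X.ψ ≤ 𝔮 → ∀ q, X.y q ∈ 𝔮 ∧ algebraMap S₀ S (X.α q) ∈ 𝔮 ∧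
    algebraMap S₀ S (X.β q) ∈ 𝔮
  tau : ∀ 𝔮, X.Pn 𝔮 → ∀ l, (∀ u ∈ X.τP l, X.ψ u ∈ 𝔮) → ∀ u ∈ X.τl l, algebraMap S₀ S u ∈ 𝔮
  dl : ∀ 𝔮, X.Pn 𝔮 → ∀ l, X.ψ (X.DP l) ∈ 𝔮 → algebraMap S₀ S (X.Dl l) ∈ 𝔮
  ij : ∀ 𝔮, X.Pn 𝔮 → X.ψ X.π ∈ 𝔮 → ∀ J,
    (X.IP J ≤ 𝔮.comap X.ψ ↔ X.IJ J ≤ 𝔮.comap (algebraMap S₀ S))
  dom : ∀ η, X.Tp η → ∀ 𝔮 : Ideal S₀, 𝔮.IsPrime → 𝔮 ≤ X.p1 → X.E ≤ 𝔮 → X.π₀ ∈ 𝔮 →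
    X.IJ (ty X.τl η) ≤ 𝔮 → η ≤ 𝔮
  tyI : ∀ η, X.Tp η → X.IJ (ty X.τl η) ≤ η
  tr : ∀ η, X.Tp η → ∀ l, l ∉ ty X.τl η → X.Dl l ∉ η

end

section
variable {P S₀ S L κ : Type} [CommRing P] [Base P] [CommRing S₀] [CommRing S] [Algebra S₀ S]
  [Fintype L] (X : RD P S₀ S L κ) (U : Ultrafilter ℕ) {ι I : Type} [Fintype ι]
  (a : ι → P) (M : I → ℕ → Type) [∀ i n, AddCommGroup (M i n)] [∀ i n, Module P (M i n)]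
  (ses : I → I → I → Prop) (iJ : Finset L → I)

/-- the component of type `J` through the curve is in the support -/
def Au3 (J : Finset L) : Prop :=
  ∃ η : Ideal S, X.Pn η ∧ X.Tp (η.comap (algebraMap S₀ S)) ∧
    ty X.τl (η.comap (algebraMap S₀ S)) = J ∧ An U (M (iJ J)) ≤ η.comap X.ψ

/-- **input of the last step** -/
structure ED3 (ig : I) (E' : Ideal S₀) (C : ℕ → Type) [∀ n, AddCommGroup (C n)]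
    [∀ n, Module P (C n)] (m : Finset L → ℕ) : Prop where
  comb : ∀ N : I → ℕ∞, (∀ i j k, ses i j k → N j = N i + N k) →
    ∀ J, (∀ l, X.τl l ⊆ (E' : Set S₀) → l ∉ J) → (m J : ℕ∞) * N (iJ J) ≤ N ig
  cyc : ∃ (δ : ℕ → P) (e : P), Cv (U : Filter ℕ) δ e ∧
    (∀ 𝔮 : Ideal P, 𝔮.IsPrime → e ∈ 𝔮 → ∃ i, a i ∈ 𝔮) ∧
    ∀ n, ∃ χ : C n, ∀ v : C n, δ n • v ∈ Submodule.span P {χ}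
  sep : ∀ J q (𝔮 : Ideal S), X.Pn 𝔮 → An U (M (iJ J)) ≤ 𝔮.comap X.ψ →
    2 * X.y q - algebraMap S₀ S (X.α q) ∈ 𝔮 → ∃ i, X.ψ (a i) ∈ 𝔮
  len : ∀ (η : Ideal S₀) [η.IsPrime], X.Tp η → E' ≤ η →
    ln η (S₀ ⧸ (E' ⊔ Ideal.span {X.π₀})) ≤ (m (ty X.τl η) : ℕ)
  ch0 : ∀ Z : Ideal S₀, Z.IsPrime → Z ≤ X.p1 → E' ≤ Z → X.π₀ ∉ Z →
    ∃ 𝔮 η : Ideal S₀, 𝔮.IsPrime ∧ X.Tp η ∧ E' ≤ 𝔮 ∧ 𝔮 ≤ Z ∧ 𝔮 ≤ η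

end

end Vale.Agent.P022G.Pt
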