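import Vale.Agent.P022G.Pt.T
import Vale.Agent.P022D.As.End
import Vale.Agent.P022D.As.Dual
import Vale.Agent.P022D.As.Dgd
import Vale.Agent.P022D.As.Grp

/-!
# P022G, patching at a curve: from discrete modules to the patching data
-/

set_option linter.all false

open IsLocalRing Filter

noncomputable section

namespace Vale.Agent.P022G.Pt

open Vale.Agent.P022D.PA Vale.Agent.P022D.As Vale.Agent.P022D.As.EA Vale.Agent.P022D.As.EB

/-- the duals of a sequence -/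
abbrev Du (Y : ℕ → Type) [∀ n, AddCommGroup (Y n)] : ℕ → Type := fun n => CharacterModule (Y n)

theorem ann_dual {P Y : Type} [CommRing P] [AddCommGroup Y] [Module P Y] :
    Module.annihilator P (CharacterModule Y) = Module.annihilator P Y := by
  ext u
  rw [Module.mem_annihilator, Module.mem_annihilator]
  exact ⟨fun h w => CharacterModule.eq_zero_of_character_apply fun φ => by
    rw [← CharacterModule.smul_apply, h]; rfl, fun h => dk h⟩

section
variable {P : Type} [CommRing P] [Base P] {ι I : Type} [Fintype ι] (π : P)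
  (u : ℕ → ι → P) (D : ℕ → P) (Yb : I → ℕ → Type) (Y0 : I → Type)
  [∀ i n, AddCommGroup (Yb i n)] [∀ i n, Module P (Yb i n)] [∀ i, AddCommGroup (Y0 i)]
  [∀ i, Module P (Y0 i)] (ses : I → I → I → Prop)

/-- **discrete modules of characteristic two** -/
structure DM : Prop where
  ex : ∀ i j k, ses i j k → ∀ n, ∃ (f : Yb i n →ₗ[P] Yb j n) (g : Yb j n →ₗ[P] Yb k n),
    Function.Injective f ∧ Function.Exact f g ∧ Function.Surjective g
  dis : ∀ i n, Dis P (Yb i n)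
  dis0 : ∀ i, Dis P (Y0 i)
  sb : ∀ i, ∃ b, ∀ n, Sb P b (Yb i n)
  sb0 : ∀ i, ∃ b, Sb P b (Y0 i)
  pi : ∀ i n (w : Yb i n), π • w = 0
  nil : ∀ i n s (w : Yb i n), u n s ^ 2 ^ n • w = 0
  free : ∀ i n (w : Yb i n), (∀ s, u n s • w = 0) →
    ∃ w' : Yb i n, w = (∏ s, u n s ^ (2 ^ n - 1)) • w'
  fib : ∀ i n, Fib (u n) (D n) (Yb i n) (Y0 i)

/-- **a discrete flat family** over `Yb i` -/
structure DF (i : I) (Wc : ℕ → Type) [∀ n, AddCommGroup (Wc n)] [∀ n, Module P (Wc n)] :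
    Prop where
  two : ∃ e : P, 2 = π * e
  max : π ∈ maximalIdeal P
  dis : ∀ n, Dis P (Wc n)
  red : ∀ n, ∃ q : Yb i n →ₗ[P] Wc n, Function.Injective q ∧
    ∀ w, w ∈ LinearMap.range q ↔ π • w = 0
  piC : ∀ n (w : Wc n), π ^ (n + 1) • w = 0
  flat : ∀ n (w : Wc n), π • w = 0 → ∃ w' : Wc n, w = π ^ n • w'
  grp : ∀ n s (w : Wc n), (1 + u n s) ^ 2 ^ n • w = w

variable {π u D Yb Y0 ses}

theorem an_of (U : Ultrafilter ℕ) {Y : ℕ → Type} [∀ n, AddCommGroup (Y n)] [∀ n, Module P (Y n)]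
    {z : ℕ → P} {a : P} (h : Cv (U : Filter ℕ) z a) (hz : ∀ n (w : Y n), z n • w = 0) :
    a ∈ An U (Du Y) := ann_lim h fun n => dk (hz n)

theorem DM.gd (H : DM π u D Yb Y0 ses) {U : Filter ℕ} (hU : U ≤ atTop) (i : I) :
    Gd U u D (Du (Yb i)) (CharacterModule (Y0 i)) :=
  dgd dgen dtor _ U _ u D (Yb i) (Y0 i) ⟨H.dis i, H.dis0 i, H.sb i, H.sb0 i,
    fun j => hU ((eventually_ge_atTop j).mono fun n hn => ds_of _
      (Nat.succ_le_of_lt (lt_of_le_of_lt hn Nat.lt_two_pow_self)) (H.nil i n) (H.free i n)),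
    H.fib i⟩

theorem DM.exd (H : DM π u D Yb Y0 ses) (i j k : I) (h : ses i j k) (n : ℕ) :
    ∃ (f : Du (Yb k) n →ₗ[P] Du (Yb j) n) (g : Du (Yb j) n →ₗ[P] Du (Yb i) n),
      (∀ x, f x ∈ J1 (u n) • (⊤ : Submodule P (Du (Yb j) n)) →
        D n • x ∈ J1 (u n) • (⊤ : Submodule P (Du (Yb k) n))) ∧
      Function.Exact f g ∧ Function.Surjective g := by
  obtain ⟨f, g, a1, a2, a3⟩ := H.ex i j k h n
  refine ⟨CharacterModule.dual g, CharacterModule.dual f, fun φ hφ => ?_, dex a2 a3,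
    CharacterModule.dual_surjective_of_injective f a1⟩
  refine Submodule.smul_mem _ _ ((dtor _ _ _ _ φ).2 fun w hw => ?_)
  obtain ⟨w', rfl⟩ := H.free k n w hw
  obtain ⟨w', rfl⟩ := a3 w'
  rw [← map_smul]
  refine (dtor _ _ _ _ _).1 hφ _ fun s => ?_
  have := kl (u n) (j := 1) (k := 2 ^ n - 1) (H.nil j n)
    (by have := Nat.one_le_two_pow (n := n); omega) s w'
  rwa [pow_one] at this

variable {Wc : ℕ → Type} [∀ n, AddCommGroup (Wc n)] [∀ n, Module P (Wc n)] {i : I}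

theorem DF.sb (H : DM π u D Yb Y0 ses) (F : DF π u Yb i Wc) : ∃ b, ∀ n, Sb P b (Wc n) := by
  obtain ⟨b, hb⟩ := H.sb i
  refine ⟨b, fun n => ?_⟩
  obtain ⟨q, qinj, qran⟩ := F.red n
  obtain ⟨s, s1, s2⟩ := hb n
  refine ⟨fun j => q (s j), fun j u hu => by rw [← map_smul, s1 j u hu, map_zero],
    fun w hw => ?_⟩
  obtain ⟨v, rfl⟩ := (qran w).2 (hw _ F.max)
  have := Submodule.mem_map_of_mem (f := q)
    (s2 v fun u hu => qinj (by rw [map_smul, hw u hu, map_zero]))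
  rwa [Submodule.map_span, ← Set.range_comp] at this

theorem DF.gd (H : DM π u D Yb Y0 ses) (F : DF π u Yb i Wc) {U : Filter ℕ} (hU : U ≤ atTop) :
    Gd U (fun n (o : Option ι) => o.elim π (u n)) D (Du Wc) (CharacterModule (Y0 i)) := by
  obtain ⟨e2, he2⟩ := F.two
  choose q qinj qran using F.red
  exact dgd dgen dtor _ U _ _ D Wc (Y0 i) ⟨F.dis, H.dis0 _, F.sb H, H.sb0 _, fun j => by
    obtain ⟨n₀, hn₀⟩ := P022D.As.grp P ι π e2 he2 j
    refine hU ((eventually_ge_atTop n₀).mono fun n hn => hn₀ n hn (u n) (Wc n) (F.piC n)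
      (F.flat n) (F.grp n) fun w h1 h2 => ?_)
    obtain ⟨v, rfl⟩ := (qran n w).2 h1
    obtain ⟨v', rfl⟩ := H.free _ n v fun s => qinj n (by rw [map_smul, h2, map_zero])
    exact ⟨q n v', by rw [← map_smul, H.pi, map_zero], map_smul _ _ _⟩, fun n => by
    obtain ⟨β, b1, b2, b3⟩ := H.fib i n
    refine ⟨(q n).comp β, fun o w => ?_, fun w hw => b2 w (qinj n ?_), fun w hw => ?_⟩
    · rw [LinearMap.comp_apply, ← map_smul]
      cases o with
      | none => exact (congrArg _ (H.pi _ n _)).trans (map_zero _)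
      | some s => exact (congrArg _ (b1 s w)).trans (map_zero _)
    · rw [map_zero]; exact hw
    · obtain ⟨v, rfl⟩ := (qran n w).2 (hw none)
      obtain ⟨z, hz⟩ := b3 v fun s => qinj n (by rw [map_smul, map_zero]; exact hw (some s))
      exact ⟨z, by rw [LinearMap.comp_apply, hz, map_smul]⟩⟩

theorem DF.redd (F : DF π u Yb i Wc) (n : ℕ) : ∃ p : Du Wc n →ₗ[P] Du (Yb i) n,
    Function.Surjective p ∧ ∀ x, p x = 0 ↔ ∃ z, x = π • z := by
  obtain ⟨q, qinj, qran⟩ := F.red n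
  refine ⟨CharacterModule.dual q, CharacterModule.dual_surjective_of_injective _ qinj,
    fun φ => ⟨fun h => ?_, ?_⟩⟩
  · have := (dtor P Unit (fun _ => π) _ φ).2 fun w hw => by
      obtain ⟨v, rfl⟩ := (qran w).2 (hw ())
      exact DFunLike.congr_fun h v
    rw [J1, Set.range_const, Submodule.ideal_span_singleton_smul,
      Submodule.mem_smul_pointwise_iff_exists] at this
    obtain ⟨z, -, hz⟩ := this
    exact ⟨z, hz.symm⟩
  · rintro ⟨z, rfl⟩
    ext v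
    change z (π • q v) = 0
    rw [(qran _).1 ⟨v, rfl⟩, map_zero]

/-- the third part of `ED3.cyc` -/
theorem DF.cyc (H : DM π u D Yb Y0 ses) (F : DF π u Yb i Wc) {δ : P} {n : ℕ}
    (h : ∃ χ : CharacterModule (Wc n), ∀ w : Wc n, (∀ t : P, χ (t • w) = 0) → δ • w = 0) :
    ∃ χ : Du Wc n, ∀ v : Du Wc n, δ • v ∈ Submodule.span P {χ} := by
  obtain ⟨b, hb⟩ := F.sb H
  obtain ⟨χ, hχ⟩ := h
  refine ⟨χ, fun v => dann _ b _ (F.dis n) (hb n) _ _ fun w hw => ?_⟩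
  have := hχ w fun t => hw (t • χ) (Submodule.smul_mem _ _ (Submodule.mem_span_singleton_self _))
  rw [CharacterModule.smul_apply]
  exact (congrArg v this).trans (map_zero _)

/-- **descent** -/
theorem DF.desc (H : DM π u D Yb Y0 ses) (F : DF π u Yb i Wc) {O : Type} [CommRing O] [IsDomain O]
    [IsDiscreteValuationRing O] {ϖ : O} (hϖ : Irreducible ϖ) (x : P →+* O)
    (hx : ∀ a ∈ maximalIdeal P, x a ∈ maximalIdeal O) (xπ : x π = ϖ) (xu : ∀ n s, x (u n s) = 0)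
    (xD : ∃ v : ℕ, ∀ n, ¬ ϖ ^ v ∣ x (D n)) (U : Ultrafilter ℕ) (hU : (U : Filter ℕ) ≤ atTop)
    (h : An U (Du Wc) ≤ RingHom.ker x) (j : ℕ) : ∃ j0 : ℕ, ∀ᶠ n in (U : Filter ℕ), ∀ t : P,
      (∀ w : Wc n, π ^ j0 • w = 0 → (∀ s, u n s • w = 0) → (D n * t) • w = 0) → ϖ ^ j ∣ x t := by
  obtain ⟨v, hv⟩ := xD
  obtain ⟨j0, hj⟩ := EA.desc hϖ x hx U _ (F.gd H hU).gen h v j
  have e : ∀ (k : ℕ) (z : O), z ∈ maximalIdeal O ^ k ↔ ϖ ^ k ∣ z := fun k z => by
    rw [hϖ.maximalIdeal_eq, Ideal.span_singleton_pow, Ideal.mem_span_singleton]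
  refine ⟨j0, hj.mono fun n h1 t h3 => h1 (D n) t
    (J1 fun o : Option ι => o.elim (π ^ j0) (u n)) (hv n) (fun z hz => ?_)
    fun φ => (dtor _ _ _ _ _).2 fun w hw => ?_⟩
  · refine (e _ _).1 (Ideal.mem_comap.1 (Ideal.span_le.2 ?_ hz))
    rintro _ ⟨o, rfl⟩
    cases o with
    | none =>
      change x (π ^ j0) ∈ maximalIdeal O ^ j0
      rw [map_pow, xπ, e]
    | some s =>
      change x (u n s) ∈ maximalIdeal O ^ j0
      rw [xu]; exact zero_mem _
  · rw [CharacterModule.smul_apply, h3 w (hw none) fun s => hw (some s), map_zero]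

end

section
variable {P S₀ S L κ : Type} [CommRing P] [Base P] [CommRing S₀] [CommRing S] [Algebra S₀ S]
  [Fintype L] {X : RD P S₀ S L κ} {U : Ultrafilter ℕ} {ι I : Type} [Fintype ι]
  {u : ℕ → ι → P} {a : ι → P} {D : ℕ → P} {d : P} {Yb : I → ℕ → Type} {Y0 : I → Type}
  [∀ i n, AddCommGroup (Yb i n)] [∀ i n, Module P (Yb i n)] [∀ i, AddCommGroup (Y0 i)]
  [∀ i, Module P (Y0 i)] {ses : I → I → I → Prop} {iJ : Finset L → I}

/-- **MD** -/
theorem DM.md (H : DM X.π u D Yb Y0 ses) (hU : (U : Filter ℕ) ≤ atTop)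
    (hu : ∀ i, Cv (U : Filter ℕ) (fun n => u n i) (a i)) (hD : Cv (U : Filter ℕ) D d)
    (dp : d ∉ X.p0) (ue : ∀ n i, u n i ∈ X.𝔢) (dim : X.d = X.a + (Fintype.card ι + 2))
    (gal : ∀ J, X.Gal X.E (An U (Du (Yb (iJ J)))))
    (unr : ∀ J l, l ∉ J → ∀ t ∈ X.τP l, ∀ n (w : Yb (iJ J) n), t • w = 0)
    (new : ∃ c : ℕ, ∀ J l, l ∈ J → ∀ n (w : Yb (iJ J) n), X.DP l ^ c • w = 0) :
    MD X U u a D d (fun i => Du (Yb i)) (fun i => CharacterModule (Y0 i)) ses iJ :=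
  ⟨hU, hu, hD, dp, ue, dim, H.gd hU, H.exd, gal, fun J => an_of U (cv_const _) (H.pi _),
    fun J l h t ht => an_of U (cv_const _) (unr J l h t ht),
    fun J l h => new.imp fun c hc => an_of U (cv_const _) (hc J l h)⟩

/-- **FD** -/
theorem DF.fd {Wc : ℕ → Type} [∀ n, AddCommGroup (Wc n)] [∀ n, Module P (Wc n)] {i : I}
    (H : DM X.π u D Yb Y0 ses) (F : DF X.π u Yb i Wc) (hU : (U : Filter ℕ) ≤ atTop)
    {E' : Ideal S₀} (le : X.E ≤ E') (gal : X.Gal E' (An U (Du Wc))) :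
    FD X U u D (fun i => Du (Yb i)) (fun i => CharacterModule (Y0 i)) i E' (Du Wc) :=
  ⟨F.gd H hU, F.redd, le, gal⟩

end

end Vale.Agent.P022G.Pt
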