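import Vale.Agent.P022G.Pt.B
import Vale.Agent.P022G.Pt.Defs3

/-!
# P022G, patching at a curve: the four theorems in final form
-/

set_option linter.all false

open IsLocalRing Filter

noncomputable section

namespace Vale.Agent.P022G.Pt.T

open Vale.Agent.P022D.PA Vale.Agent.P022D.As.EA
open Vale.Agent.P022D.Core (ty)

section ring0
variable {P S : Type} [CommRing P] [CommRing S] {ψ : P →+* S} {𝔞 : Ideal P} {𝔱 𝔭 : Ideal S}

/-- the end game upstairs -/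
theorem core3 [IsNoetherianRing S] {π : P} (H : Pur ψ 𝔞 𝔱 𝔭) (H' : Tf ψ 𝔞 𝔱 𝔭 π)
    (η : Ideal S) [hη : η.IsPrime] (h1 : η ≤ 𝔭) (h2 : 𝔱 ≤ η) {a : Ideal P} (h3 : 𝔞 ≤ a)
    {b : Ideal S} (h4 : Lc η b (a.map ψ ⊔ 𝔱)) (h6 : ψ π ∈ η) {m : ℕ}
    (h7 : ln η (S ⧸ (b ⊔ Ideal.span {ψ π})) ≤ m)
    (h8 : (m : ℕ∞) ≤ ln (η.comap ψ) (P ⧸ (a ⊔ Ideal.span {π})))
    (h9 : ∀ t : P, π * t ∈ a → ∃ h₀ : P, ψ h₀ ∉ η ∧ h₀ * t ∈ a) :
    ∃ h ∉ η, ∀ t ∈ a, h * ψ t ∈ b := by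
  have one : (1 : S) ∉ η := (Ideal.ne_top_iff_one _).1 hη.ne_top
  have lc : Lc η (a.map ψ ⊔ 𝔱 ⊔ b) (a.map ψ ⊔ 𝔱) := fun s hs => by
    obtain ⟨z, hz, w, hw, rfl⟩ := Submodule.mem_sup.1 hs
    obtain ⟨h, a1, a2⟩ := h4 w hw
    exact ⟨h, a1, by
      rw [mul_add]; exact add_mem (Ideal.mul_mem_left _ _ hz) a2⟩
  have hl : (m : ℕ∞) ≤ ln η (S ⧸ (a.map ψ ⊔ 𝔱 ⊔ b ⊔ Ideal.span {ψ π})) :=
    h8.trans (H.len η h1 h2 (h3.trans le_sup_left) fun s hs => by
      obtain ⟨z, hz, w, hw, rfl⟩ := Submodule.mem_sup.1 hs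
      obtain ⟨h, a1, a2⟩ := lc z hz
      refine ⟨h, a1, ?_⟩
      rw [mul_add]
      have mo : a.map ψ ⊔ 𝔱 ≤ (a ⊔ Ideal.span {π}).map ψ ⊔ 𝔱 :=
        sup_le_sup_right (Ideal.map_mono le_sup_left) _
      refine add_mem (mo a2)
        (Ideal.mem_sup_left (Ideal.mul_mem_left _ _ ?_))
      rw [Ideal.map_sup, Ideal.map_span, Set.image_singleton]
      exact Ideal.mem_sup_right hw)
  have hq : ln η (S ⧸ (a.map ψ ⊔ 𝔱 ⊔ b ⊔ Ideal.span {ψ π})) ≤
      ln η ((S ⧸ (a.map ψ ⊔ 𝔱 ⊔ b)) ⧸ Ideal.span {ψ π} • (⊤ : Submodule S (S ⧸ (a.map ψ ⊔ 𝔱 ⊔ b)))) := by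
    refine ln_le η (Submodule.liftQ _ (Submodule.factor le_sup_left) ?_) fun z => ?_
    · refine Submodule.smul_le.2 fun r hr x _ => ?_
      obtain ⟨x, rfl⟩ := Submodule.Quotient.mk_surjective _ x
      rw [LinearMap.mem_ker, map_smul]
      change r • Submodule.Quotient.mk x = 0
      rw [← Submodule.Quotient.mk_smul, Submodule.Quotient.mk_eq_zero]
      exact Ideal.mem_sup_right (Ideal.mul_mem_right _ _ hr)
    · obtain ⟨x, rfl⟩ := Submodule.Quotient.mk_surjective _ z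
      exact ⟨Submodule.Quotient.mk (Submodule.Quotient.mk x), rfl⟩
  obtain ⟨h, a1, a2⟩ := endC S η (S ⧸ (a.map ψ ⊔ 𝔱 ⊔ b)) (ψ π) 1 (Submodule.Quotient.mk 1) b h6 one
    (fun v hv => by
      obtain ⟨x, rfl⟩ := Submodule.Quotient.mk_surjective _ v
      rw [← Submodule.Quotient.mk_smul, Submodule.Quotient.mk_eq_zero] at hv
      obtain ⟨k, b1, b2⟩ := lc _ hv
      obtain ⟨k', c1, c2⟩ := H' η hη h1 h2 a h3 h9 (k * x) (by
        rw [mul_left_comm]; exact b2)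
      refine ⟨k' * k, fun c => (hη.mem_or_mem c).elim c1 b1, ?_⟩
      rw [← Submodule.Quotient.mk_smul, Submodule.Quotient.mk_eq_zero, smul_eq_mul, mul_assoc]
      exact Ideal.mem_sup_left c2)
    (fun v => by
      obtain ⟨x, rfl⟩ := Submodule.Quotient.mk_surjective _ v
      refine Submodule.mem_sup_left (Submodule.mem_span_singleton.2 ⟨x, ?_⟩)
      rw [← Submodule.Quotient.mk_smul, one_smul, smul_eq_mul, mul_one])
    (fun s hs => Module.mem_annihilator.2 fun v => by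
      obtain ⟨x, rfl⟩ := Submodule.Quotient.mk_surjective _ v
      rw [← Submodule.Quotient.mk_smul, Submodule.Quotient.mk_eq_zero]
      exact Ideal.mem_sup_right (Ideal.mul_mem_right _ _ hs))
    (h7.trans (hl.trans hq)) (ne_top_of_le_ne_top (ENat.coe_ne_top m) h7)
  refine ⟨h, a1, fun t ht => a2 _ (Module.mem_annihilator.2 fun v => ?_)⟩
  obtain ⟨x, rfl⟩ := Submodule.Quotient.mk_surjective _ v
  rw [← Submodule.Quotient.mk_smul, Submodule.Quotient.mk_eq_zero]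
  exact Ideal.mem_sup_left (Ideal.mem_sup_left
    (Ideal.mul_mem_right _ _ (Ideal.mem_map_of_mem _ ht)))

end ring0

section ring
variable {P S₀ S L κ : Type} [CommRing P] [CommRing S₀] [CommRing S] [Algebra S₀ S]
  [Fintype L] [Fintype κ] [IsNoetherianRing S₀] {X : RD P S₀ S L κ}

theorem pm_of {E' : Ideal S₀} {𝔟 : Ideal P} (g : X.Gal E' 𝔟) (hE : X.E ≤ E') {η : Ideal S}
    (hη : η.IsPrime) (h1 : η ≤ X.𝔭) (h2 : 𝔟.map X.ψ ⊔ X.𝔱 ≤ η) :
    X.Pn η ∧ E' ≤ η.comap (algebraMap S₀ S) := by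
  have := g.2.le hη h1 h2
  exact ⟨⟨hη, h1, (Ideal.map_mono hE).trans (le_sup_left.trans this), le_sup_right.trans this,
    (Ideal.map_mono g.1).trans (le_sup_left.trans h2), le_sup_right.trans h2⟩,
    Ideal.map_le_iff_le_comap.1 (le_sup_left.trans this)⟩

theorem pm_t (H : X.Ok3) {η : Ideal S} (h : X.Pn η) : X.𝔱 ≤ η := h.t

theorem pm_p (H : X.Ok3) : X.Pn X.𝔭 :=
  (pm_of H.gal0 le_rfl H.pr le_rfl (sup_le (Ideal.map_le_iff_le_comap.2 H.ep) H.tp)).1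

theorem dim_eq (H : X.Ok3) {η : Ideal S} (h : X.Pn η) :
    ringKrullDim (S ⧸ η) = ringKrullDim (S₀ ⧸ η.comap (algebraMap S₀ S)) :=
  haveI := h.pr
  ((etl S₀ S κ X.y X.α X.β X.𝔯 H.cov).1 η h.r).1

theorem tp_of (H : X.Ok3) {η : Ideal S} (h : X.Pn η) (h1 : X.ψ X.π ∈ η)
    (h2 : ((X.d : ℕ) : WithBot ℕ∞) ≤ ringKrullDim (S ⧸ η)) : X.Tp (η.comap (algebraMap S₀ S)) :=
  haveI := h.pr
  ⟨inferInstance, Ideal.comap_mono h.le, Ideal.map_le_iff_le_comap.1 h.E,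
    by rw [H.pi] at h1; exact h1, by rwa [← dim_eq H h]⟩

theorem last (H : X.Ok3) {I 𝔮 : Ideal S} (h : X.Pn 𝔮) (h1 : X.𝔢.map X.ψ ≤ 𝔮) (h2 : X.𝔯 ≤ I)
    (h3 : I.comap (algebraMap S₀ S) ≤ 𝔮.comap (algebraMap S₀ S)) : I ≤ 𝔮 :=
  haveI := h.pr
  (etl S₀ S κ X.y X.α X.β X.𝔯 H.cov).2 I 𝔮 h2 h.r (fun q => (H.y0 𝔮 h h1 q).1)
    (fun q => (H.y0 𝔮 h h1 q).2) h3

theorem tp_le (H : X.Ok3) {η η' : Ideal S₀} (h : X.Tp η) (h' : X.Tp η')
    (e : ty X.τl η = ty X.τl η') : η ≤ η' :=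
  H.dom η h η' h'.pr h'.le h'.E h'.π (e ▸ H.tyI η' h')

end ring

section
variable {P S₀ S L κ : Type} [CommRing P] [Base P] [CommRing S₀] [CommRing S] [Algebra S₀ S]
  [Fintype L] [Fintype κ] [IsNoetherianRing S₀] {X : RD P S₀ S L κ} {U : Ultrafilter ℕ}
  {ι I : Type} [Fintype ι]
  {u : ℕ → ι → P} {a : ι → P} {D : ℕ → P} {d : P} {M : I → ℕ → Type} {G : I → Type}
  [∀ i n, AddCommGroup (M i n)] [∀ i n, Module P (M i n)] [∀ i, AddCommGroup (G i)]
  [∀ i, Module P (G i)] {ses : I → I → I → Prop} {iJ : Finset L → I}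

theorem typ (H : X.Ok3) (K : MD X U u a D d M G ses iJ) {η : Ideal S} (h : X.Pn η)
    (ht : X.Tp (η.comap (algebraMap S₀ S))) {J : Finset L}
    (h1 : An U (M (iJ J)) ≤ η.comap X.ψ) : ty X.τl (η.comap (algebraMap S₀ S)) = J := by
  classical
  haveI := h.pr
  ext l
  constructor
  · intro k
    by_contra c
    exact (Finset.mem_filter.1 k).2 fun v hv =>
      H.tau η h l (fun t ht => h1 (K.unr J l c t ht)) v hv
  · intro k
    by_contra c
    obtain ⟨e, he⟩ := K.new J l k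
    exact H.tr _ ht l c (H.dl η h l
      (Ideal.IsPrime.mem_of_pow_mem (I := η.comap X.ψ) inferInstance _ (h1 he)))

theorem ap (H : X.Ok3) (K : MD X U u a D d M G ses iJ) (i : ι) : a i ∈ X.p0 :=
  H.ep ((limi P U _ _ X.𝔢 (K.hu i)).1 (Eventually.of_forall fun n => K.ue n i))

/-- from a modular surface to the component -/
theorem upJ (H : X.Ok3) (K : MD X U u a D d M G ses iJ) {J : Finset L} {E : Ideal P}
    (hE : E.IsPrime) (h1 : E ≤ X.p0) (h2 : (2 : WithBot ℕ∞) ≤ ringKrullDim (P ⧸ E))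
    (h3 : Module.annihilator P (G (iJ J)) ≤ E) : Au3 X U M iJ J := by
  obtain ⟨-, η, t1, t2, t3, -, t5⟩ := etaC P U K.hU ι u D _ _ (K.gd (iJ J)) a d K.hu K.hD E h3
    fun c => K.dp (h1 c)
  obtain ⟨η', s1, s2, s3, s4⟩ := H.up η t1 ((K.gal J).1.trans t3) (t2.trans h1) (t3 (K.pi J))
  have s5 : An U (M (iJ J)) ≤ η'.comap X.ψ :=
    t3.trans (Ideal.map_le_iff_le_comap.1 (le_sup_left.trans s3))
  have hp := (pm_of (K.gal J) le_rfl s1 s2
    (sup_le (Ideal.map_le_iff_le_comap.2 s5) (le_sup_right.trans s3))).1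
  have ht := tp_of H hp (s5 (K.pi J)) (by
    refine le_trans ?_ s4
    rw [K.dim, Nat.cast_add]
    refine add_le_add le_rfl (le_trans ?_ t5)
    rw [Nat.cast_add]
    exact add_le_add le_rfl h2)
  exact ⟨η', hp, ht, typ H K hp ht s5, s5⟩

/-- from the component to the primes of level zero -/
theorem dnJ (H : X.Ok3) (K : MD X U u a D d M G ses iJ) {J : Finset L} (h : Au3 X U M iJ J)
    {E : Ideal P} (hE : E.IsPrime) (h1 : E ≤ X.p0) (h2 : X.𝔢 ≤ E) (h3 : X.π ∈ E)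
    (h4 : X.IP J ≤ E) : Module.annihilator P (G (iJ J)) ≤ E := by
  obtain ⟨η, hp, ht, rfl, ha⟩ := h
  obtain ⟨E', s1, s2, s3, s4⟩ := H.pur.down H.pr le_rfl H.tp hE (H.gal0.1.trans h2) h1
  have s5 : X.𝔢.map X.ψ ≤ E' := (Ideal.map_mono h2).trans (le_sup_left.trans s3)
  obtain ⟨hq, hq'⟩ := pm_of H.gal0 le_rfl s1 s2 (sup_le s5 (le_sup_right.trans s3))
  have s6 : X.ψ X.π ∈ E' := by
    change X.π ∈ E'.comap X.ψ
    rwa [s4]
  have s7 := last H hq s5 hp.r (H.dom _ ht _ inferInstance (Ideal.comap_mono s2) hq'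
    (by rw [H.pi] at s6; exact s6) ((H.ij E' hq s6 _).1 (by rwa [s4])))
  have s8 : An U (M (iJ _)) ≤ E := ha.trans ((Ideal.comap_mono s7).trans s4.le)
  intro t ht'
  have := dsc lim limi smu fgC boxC P U K.hU ι u _ (K.gd _).gen E s8 (fun n i => h2 (K.ue n i))
    (fun n => D n * t) (d * t) (cv_mul K.hD (cv_const t)) fun n x => by
      obtain ⟨β, -, b2, -⟩ := (K.gd (iJ (ty X.τl (η.comap (algebraMap S₀ S))))).fib n
      rw [mul_smul]
      exact b2 _ (by rw [map_smul, Module.mem_annihilator.1 ht'])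
  exact (hE.mem_or_mem this).resolve_left fun c => K.dp (h1 c)

/-- the parameters do not vanish on a component -/
theorem par (H : X.Ok3) (K : MD X U u a D d M G ses iJ) {J : Finset L} {η : Ideal S}
    (hp : X.Pn η) (ht : X.Tp (η.comap (algebraMap S₀ S)))
    (ha : An U (M (iJ J)) ≤ η.comap X.ψ) (i : ι) : X.ψ (a i) ∉ η := by
  intro c
  haveI := hp.pr
  haveI := H.pr
  haveI : X.p0.IsPrime := Ideal.comap_isPrime _ _
  haveI := fgC P U _ (K.gd (iJ J)).gen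
  obtain ⟨q, q1, q2, q3, q4⟩ := drop (η := η.comap X.ψ) inferInstance ha (t := a i) c
    fun v hv => by
      obtain ⟨h, a1, a2⟩ := regC P U K.hU ι u D _ _ (K.gd (iJ J)) a d K.hu K.hD X.p0 (ap H K) K.dp
        ∅ i (by simp) v (by rw [hv]; exact zero_mem _)
      exact ⟨h, fun k => a1 (Ideal.comap_mono hp.le k), by simpa using a2⟩
  obtain ⟨η', s1, s2, s3, s4⟩ := H.pur.down hp.pr hp.le (pm_t H hp) q1 ((K.gal J).1.trans q3) q2
  have s5 : An U (M (iJ J)) ≤ η'.comap X.ψ := q3.trans s4.ge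
  have hq := (pm_of (K.gal J) le_rfl s1 (s2.trans hp.le)
    (sup_le (Ideal.map_le_iff_le_comap.2 s5) (le_sup_right.trans s3))).1
  have hs := tp_of H hq (s5 (K.pi J)) (by
    refine le_trans ht.dim ?_
    rw [← dim_eq H hp]
    exact ringKrullDim_le_of_surjective (Ideal.Quotient.factor s2)
      (Ideal.Quotient.factor_surjective s2))
  have := inc H.cov s1 hq.r s2 (tp_le H ht hs ((typ H K hp ht ha).trans (typ H K hq hs s5).symm))
  exact q4 (by rw [← s4]; exact this c)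

end

section
variable {P S₀ S L κ : Type} [CommRing P] [Base P] [CommRing S₀] [CommRing S] [Algebra S₀ S]
  [Fintype L] [Fintype κ] [IsNoetherianRing S₀] {X : RD P S₀ S L κ} {U : Ultrafilter ℕ}
  {ι I : Type} [Fintype ι]
  {u : ℕ → ι → P} {a : ι → P} {D : ℕ → P} {d : P} {M : I → ℕ → Type} {G : I → Type}
  [∀ i n, AddCommGroup (M i n)] [∀ i n, Module P (M i n)] [∀ i, AddCommGroup (G i)]
  [∀ i, Module P (G i)] {ses : I → I → I → Prop} {iJ : Finset L → I}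
  {C : ℕ → Type} [∀ n, AddCommGroup (C n)] [∀ n, Module P (C n)]

theorem add (H : X.Ok3) (K : MD X U u a D d M G ses iJ) (η : Ideal P) [η.IsPrime]
    (h : η ≤ X.p0) (i j k : I) (hs : ses i j k) :
    ln η (P022D.PA.L P U (M j)) = ln η (P022D.PA.L P U (M i)) + ln η (P022D.PA.L P U (M k)) := by
  haveI := H.pr
  haveI : X.p0.IsPrime := Ideal.comap_isPrime _ _
  choose f g a1 a2 a3 using K.ex i j k hs
  have := (exaC P U K.hU ι u D (M k) (M j) (M i) (G j) (G i) f g a1 a2 a3 (K.gd k).gen (K.gd j)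
    (K.gd i) a d K.hu K.hD X.p0 (ap H K) K.dp).2 η h
  rw [this, add_comm]

theorem ne' (K : MD X U u a D d M G ses iJ) (η : Ideal P) [η.IsPrime] (i : I) :
    ln η (P022D.PA.L P U (M i)) ≠ 0 ↔ An U (M i) ≤ η := by
  rw [Ne, (len0 P η _).2 (fgC P U _ (K.gd i).gen), not_not]

theorem fmap (K : MD X U u a D d M G ses iJ) {i : I} {E' : Ideal S₀}
    (F : FD X U u D M G i E' C) : ∃ p : P022D.PA.L P U C →ₗ[P] P022D.PA.L P U (M i),
      Function.Surjective p ∧ ∀ x, p x = 0 ↔ ∃ z, x = X.π • z := by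
  choose p p1 p2 using F.red
  obtain ⟨e1, e2⟩ := rexC P U K.hU C C (M i) (fun n => LinearMap.lsmul P (C n) X.π) p
    (fun n x => by rw [p2]; exact ⟨fun ⟨z, h⟩ => ⟨z, h.symm⟩, fun ⟨z, h⟩ => ⟨z, h.symm⟩⟩) p1
  have e : ∀ z, Lmap (U : Filter ℕ) (fun n => LinearMap.lsmul P (C n) X.π) z = X.π • z := by
    intro z
    obtain ⟨z, rfl⟩ := Submodule.Quotient.mk_surjective _ z
    rfl
  refine ⟨_, e2, fun x => (e1 x).trans ?_⟩
  exact ⟨fun ⟨z, h⟩ => ⟨z, by rw [← h, e]⟩, fun ⟨z, h⟩ => ⟨z, by rw [h, e]⟩⟩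

theorem freg (H : X.Ok3) (K : MD X U u a D d M G ses iJ) {i : I} {E' : Ideal S₀}
    (F : FD X U u D M G i E' C) (hπ : X.π ∈ X.p0) (v : P022D.PA.L P U C) (hv : X.π • v = 0) :
    ∃ h ∉ X.p0, h • v = 0 := by
  haveI := H.pr
  haveI : X.p0.IsPrime := Ideal.comap_isPrime _ _
  obtain ⟨h, a1, a2⟩ := regC P U K.hU (Option ι) _ D C (G i) F.gd
    (fun o => o.elim X.π a) d
    (fun o => by cases o with
      | none => exact cv_const _
      | some i => exact K.hu i) K.hD X.p0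
    (fun o => by cases o with
      | none => exact hπ
      | some i => exact ap H K i) K.dp ∅ none (by simp) v (by
        change X.π • v ∈ _
        rw [hv]; exact zero_mem _)
  exact ⟨h, a1, by simpa using a2⟩

/-- **level lowering** -/
theorem low (H : X.Ok3) (K : MD X U u a D d M G ses iJ) {ib : I} {E' : Ideal S₀}
    (F : FD X U u D M G ib E' C) {J J' : Finset L} (W : LD X ses iJ ib E' J J')
    (h : Au3 X U M iJ J') : Au3 X U M iJ J := by
  obtain ⟨η, hp, ht, hJ, ha⟩ := h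
  haveI := hp.pr
  haveI := H.pr
  haveI := fgC P U _ F.gd.gen
  obtain ⟨p, p1, p2⟩ := fmap K F
  have le0 : η.comap X.ψ ≤ X.p0 := Ideal.comap_mono hp.le
  have n1 : An U (M ib) ≤ η.comap X.ψ := (ne' K _ _).1
    ((W.comb _ (add H K _ le0)).2 ⟨J', (ne' K _ _).2 ha⟩)
  have n2 : An U C ≤ η.comap X.ψ := le_trans (fun t ht => Module.mem_annihilator.2 fun v => by
    obtain ⟨v, rfl⟩ := p1 v
    rw [← map_smul, Module.mem_annihilator.1 ht, map_zero]) n1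
  have hπ : X.π ∈ η.comap X.ψ := ha (K.pi _)
  obtain ⟨q, q1, q2, q3, q4⟩ := drop (η := η.comap X.ψ) inferInstance n2 hπ fun v hv => by
    obtain ⟨h, a1, a2⟩ := freg H K F (le0 hπ) v hv
    exact ⟨h, fun k => a1 (le0 k), a2⟩
  obtain ⟨q', s1, s2, s3, s4⟩ := H.pur.down hp.pr hp.le (pm_t H hp) q1 (F.gal.1.trans q3) q2
  obtain ⟨hq, hq'⟩ := pm_of F.gal F.le s1 (s2.trans hp.le)
    (sup_le ((Ideal.map_mono q3).trans (le_sup_left.trans s3)) (le_sup_right.trans s3))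
  obtain ⟨η₁, t1, t2, t3⟩ := W.low _ ht hJ (q'.comap (algebraMap S₀ S)) inferInstance
    (Ideal.comap_mono s2) hq' fun c => q4 (by
      rw [← s4]
      change X.ψ X.π ∈ q'
      rw [H.pi]; exact c)
  obtain ⟨Q, r1, r2, rfl⟩ := gup H.cov hq.r t1.pr t3
  have r3 : Q ≤ X.𝔭 :=
    last H (pm_p H) (Ideal.map_le_iff_le_comap.2 H.ep) (hq.r.trans r2) t1.le
  have hQ : X.Pn Q := ⟨r1, r3, hq.E.trans r2, hq.r.trans r2, hq.a.trans r2, hq.t.trans r2⟩
  have r4 : X.π ∈ Q.comap X.ψ := by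
    change X.ψ X.π ∈ Q
    rw [H.pi]; exact t1.π
  have r5 : An U (M ib) ≤ Q.comap X.ψ := by
    refine le_trans (fun t ht => Module.mem_annihilator.2 fun v => ?_)
      (ann_quot (Y := P022D.PA.L P U C) (I := Ideal.span {X.π}) inferInstance
        (q3.trans (s4.ge.trans (Ideal.comap_mono r2)))
        ((Ideal.span_singleton_le_iff_mem _).2 r4))
    obtain ⟨v, rfl⟩ := Submodule.Quotient.mk_surjective _ v
    obtain ⟨z, hz⟩ := (p2 (t • v)).1 (by rw [map_smul, Module.mem_annihilator.1 ht])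
    rw [← Submodule.Quotient.mk_smul, Submodule.Quotient.mk_eq_zero, hz]
    exact Submodule.smul_mem_smul (Ideal.mem_span_singleton_self _) Submodule.mem_top
  obtain ⟨J'', hK⟩ := (W.comb _ (add H K _ (Ideal.comap_mono r3))).1 ((ne' K _ _).2 r5)
  have r6 := (ne' K _ _).1 hK
  have e : J'' = J := (typ H K hQ t1 r6).symm.trans t2
  exact ⟨Q, hQ, t1, t2, e ▸ r6⟩

/-- **the last step** -/
theorem fin [IsNoetherianRing S] (H : X.Ok3) (K : MD X U u a D d M G ses iJ) {ig : I}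
    {E' : Ideal S₀} (F : FD X U u D M G ig E' C) {m : Finset L → ℕ}
    (W : ED3 X U a M ses iJ ig E' C m) {Z : Ideal P} (hZ : Z.IsPrime) (z1 : Z ≤ X.p0)
    (z2 : X.𝔢 ≤ Z) (z3 : X.π ∉ Z) (z4 : X.Gal E' Z) :
    ∃ J : Finset L, X.IP J ≤ X.p0 ∧ (∀ l, X.τl l ⊆ (E' : Set S₀) → l ∉ J) ∧
      (Au3 X U M iJ J → An U C ≤ Z) := by
  classical
  haveI := H.pr
  haveI := fgC P U _ F.gd.gen
  obtain ⟨Z', s1, s2, s3, s4⟩ := H.pur.down H.pr le_rfl H.tp hZ z4.1 z1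
  obtain ⟨hq, hq'⟩ := pm_of z4 F.le s1 s2 s3
  obtain ⟨𝔮, η₀, q1, q2, q3, q4, q5⟩ := W.ch0 (Z'.comap (algebraMap S₀ S)) inferInstance
    (Ideal.comap_mono s2) hq' fun c => z3 (by
      rw [← s4]
      change X.ψ X.π ∈ Z'
      rw [H.pi]; exact c)
  have hπ : X.ψ X.π ∈ X.𝔭 := by rw [H.pi]; exact q2.le q2.π
  have hJ : ∀ l, X.τl l ⊆ (E' : Set S₀) → l ∉ ty X.τl η₀ := fun l h c =>
    (Finset.mem_filter.1 c).2 fun v hv => q5 (q3 (h hv))
  refine ⟨ty X.τl η₀, (H.ij _ (pm_p H) hπ _).2 ((H.tyI _ q2).trans q2.le), hJ, ?_⟩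
  rintro ⟨η, hp, ht, hty, ha⟩
  haveI := hp.pr
  have e : η.comap (algebraMap S₀ S) = η₀ :=
    le_antisymm (tp_le H ht q2 hty) (tp_le H q2 ht hty.symm)
  subst e
  have le0 : η.comap X.ψ ≤ X.p0 := Ideal.comap_mono hp.le
  have h1 : (1 : P) ∉ η.comap X.ψ := (Ideal.ne_top_iff_one _).1 (Ideal.IsPrime.ne_top inferInstance)
  obtain ⟨p, p1, p2⟩ := fmap K F
  obtain ⟨δ, e, c1, c2, c3⟩ := W.cyc
  have he : e ∉ η.comap X.ψ := fun c => by
    obtain ⟨i, hi⟩ := c2 _ inferInstance c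
    exact par H K hp ht ha i hi
  choose χ hχ using c3
  have cyc : ∀ v : P022D.PA.L P U C, ∃ c : P, c • (Submodule.Quotient.mk χ : P022D.PA.L P U C) =
      e • v := fun v => by
    obtain ⟨x, rfl⟩ := Submodule.Quotient.mk_surjective _ v
    choose c hc using fun n => Submodule.mem_span_singleton.1 (hχ n (x n))
    obtain ⟨c', hc'⟩ := lim P U c
    refine ⟨c', ?_⟩
    rw [← smu P U C c c' hc' χ, ← smu P U C δ e c1 x]
    exact congrArg _ (funext hc)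
  have hm : (m (ty X.τl (η.comap (algebraMap S₀ S))) : ℕ∞) ≤
      ln (η.comap X.ψ) (P022D.PA.L P U (M ig)) :=
    le_trans (le_mul_of_one_le_right' (Order.one_le_iff_ne_zero.2 ((ne' K _ _).2 ha)))
      (W.comb _ (add H K _ le0) _ hJ)
  have h8 : ln (η.comap X.ψ) (P022D.PA.L P U (M ig)) ≤
      ln (η.comap X.ψ) (P ⧸ (An U C ⊔ Ideal.span {X.π})) := by
    have := (len P (η.comap X.ψ) (P ⧸ (An U C ⊔ Ideal.span {X.π})) (P022D.PA.L P U (M ig)) PUnit
      (Submodule.liftQ _ (LinearMap.toSpanSingleton P _ (p (Submodule.Quotient.mk χ)))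
        (sup_le (fun t ht => by
          rw [LinearMap.mem_ker, LinearMap.toSpanSingleton_apply, ← map_smul,
            Module.mem_annihilator.1 ht, map_zero])
          ((Ideal.span_singleton_le_iff_mem _).2 (by
            rw [LinearMap.mem_ker, LinearMap.toSpanSingleton_apply, ← map_smul]
            exact (p2 _).2 ⟨_, rfl⟩)))) 0 (fun _ => rfl) fun y _ => by
        obtain ⟨v, rfl⟩ := p1 y
        obtain ⟨c, hc⟩ := cyc v
        exact ⟨e, he, Submodule.Quotient.mk c, by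
          change c • p (Submodule.Quotient.mk χ) = _
          rw [← map_smul, hc, map_smul]⟩).1
    rwa [(len0 P (η.comap X.ψ) PUnit).1.2 fun x => ⟨1, h1, rfl⟩, add_zero] at this
  obtain ⟨e1, e2, e3⟩ := (etl S₀ S κ X.y X.α X.β X.𝔯 H.cov).1 η hp.r
  have eq : E'.map (algebraMap S₀ S) ⊔ X.𝔯 ⊔ Ideal.span {X.ψ X.π} =
      (E' ⊔ Ideal.span {X.π₀}).map (algebraMap S₀ S) ⊔ X.𝔯 := by
    rw [Ideal.map_sup, Ideal.map_span, Set.image_singleton, sup_right_comm, H.pi]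
  obtain ⟨h, a1, a2⟩ := core3 H.pur H.tf η hp.le (pm_t H hp) F.gal.1
    (b := E'.map (algebraMap S₀ S) ⊔ X.𝔯)
    (fun s hs => by
      obtain ⟨k, b1, b2⟩ := F.gal.2 s hs
      exact ⟨k, fun c => b1 (hp.le c), b2⟩)
    (ha (K.pi _))
    (by
      rw [eq]
      exact (e2 (fun q c => by
        obtain ⟨i, hi⟩ := W.sep _ q η hp ha c
        exact par H K hp ht ha i hi) _).trans (W.len _ ht (q3.trans q5)))
    (hm.trans h8) fun t ht' => by
      obtain ⟨k, b1, b2⟩ := freg H K F hπ (t • Submodule.Quotient.mk χ) (by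
        rw [smul_smul, Module.mem_annihilator.1 ht'])
      refine ⟨k * e, fun c => ?_, Module.mem_annihilator.2 fun v => ?_⟩
      · exact ((inferInstance : (η.comap X.ψ).IsPrime).mem_or_mem c).elim
          (fun c => b1 (le0 c)) he
      · obtain ⟨c, hc⟩ := cyc v
        have : k * e * t = k * t * e := by ring
        rw [this, mul_smul, ← hc, smul_comm, mul_smul, b2, smul_zero]
  let T : Ideal S := cl (E'.map (algebraMap S₀ S) ⊔ X.𝔯) h
  have := last H hq ((Ideal.map_mono z2).trans (le_sup_left.trans s3)) (I := T)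
    (fun s hs => Ideal.mem_sup_right (Ideal.mul_mem_left _ _ hs)) fun t ht => by
      obtain ⟨k, b1, b2⟩ := e3 E' h t a1 ht
      exact q4 ((q1.mem_or_mem (q3 b2)).resolve_left fun c => b1 (q5 c))
  intro t ht
  rw [← s4]
  exact this (a2 t ht)

end

end Vale.Agent.P022G.Pt.T
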