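import Vale.Agent.P022G.Pt.Defs2
import Vale.Agent.P022G.Limk

/-! GAL, limit form: equations which hold at almost all levels hold over the patched ring. -/

set_option linter.all false

open IsLocalRing Filter

namespace Vale.Agent.P022G.Pt

open Vale.Agent.P022D.PA _root_.P022G.Lk

theorem Lc.of_span {S : Type} [CommRing S] {q : Ideal S} (hq : q.IsPrime) {X Y : Ideal S}
    (g : Set S) (hg : X ≤ Ideal.span g) (h : ∀ c ∈ g, ∃ e ∉ q, e * c ∈ Y) : Lc q X Y := by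
  intro s hs
  refine Submodule.span_induction (p := fun z _ => ∃ e ∉ q, e * z ∈ Y) h ?_ ?_ ?_ (hg hs)
  · exact ⟨1, (Ideal.ne_top_iff_one _).1 hq.ne_top, by simp⟩
  · rintro x y - - ⟨e, b1, b2⟩ ⟨k, c1, c2⟩
    refine ⟨e * k, fun c => (hq.mem_or_mem c).elim b1 c1, ?_⟩
    have : e * k * (x + y) = k * (e * x) + e * (k * y) := by ring
    rw [this]
    exact add_mem (Ideal.mul_mem_left _ _ b2) (Ideal.mul_mem_left _ _ c2)
  · rintro c x - ⟨e, b1, b2⟩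
    refine ⟨e, b1, ?_⟩
    rw [smul_eq_mul, mul_left_comm]
    exact Ideal.mul_mem_left _ _ b2

theorem Lc.of_le {S : Type} [CommRing S] {q : Ideal S} (hq : q.IsPrime) {X Y : Ideal S}
    (h : X ≤ Y) : Lc q X Y := fun s hs =>
  ⟨1, (Ideal.ne_top_iff_one _).1 hq.ne_top, by rw [one_mul]; exact h hs⟩

theorem Lc.sup {S : Type} [CommRing S] {q : Ideal S} (hq : q.IsPrime) {X X' Y : Ideal S}
    (h : Lc q X Y) (h' : Lc q X' Y) : Lc q (X ⊔ X') Y :=
  Lc.of_span hq ((X : Set S) ∪ X') (by rw [Ideal.span_union, Ideal.span_eq, Ideal.span_eq])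
    fun c hc => hc.elim (h c) (h' c)

theorem Lc.trans' {S : Type} [CommRing S] {q : Ideal S} (hq : q.IsPrime) {X Y Z : Ideal S}
    (h : Lc q X Y) (h' : Lc q Y Z) : Lc q X Z := fun s hs => by
  obtain ⟨e, a1, a2⟩ := h s hs
  obtain ⟨k, b1, b2⟩ := h' _ a2
  exact ⟨k * e, fun c => (hq.mem_or_mem c).elim b1 a1, by rwa [mul_assoc]⟩

variable {P S : Type} [CommRing P] [Base P] [CommRing S] [IsLocalRing S] [IsNoetherianRing S]

/-- an element which lies in (Ann (N n), t, m^j) for all j and almost all n lies in (An, t) -/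
theorem mem_lim (ψ : P →+* S) (hψ : ∀ x ∈ maximalIdeal P, ψ x ∈ maximalIdeal S)
    (U : Ultrafilter ℕ) (N : ℕ → Type) [∀ n, AddCommGroup (N n)] [∀ n, Module P (N n)]
    (t : Ideal S) (c : S)
    (h : ∀ j, ∀ᶠ n in (U : Filter ℕ),
      c ∈ (Module.annihilator P (N n)).map ψ ⊔ t ⊔ maximalIdeal S ^ j) :
    c ∈ (An U N).map ψ ⊔ t := by
  refine mem_of_sup _ _ fun j => ?_
  obtain ⟨n, h1, h2⟩ := ((ann_le (P := P) U N j).and (h j)).exists
  refine (sup_le (sup_le ?_ ?_) le_sup_right : _ ≤ (An U N).map ψ ⊔ t ⊔ maximalIdeal S ^ j) h2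
  · refine (Ideal.map_mono h1).trans ?_
    rw [Ideal.map_sup]
    exact sup_le (le_sup_left.trans le_sup_left) ((map_pow_le ψ hψ j).trans le_sup_right)
  · exact le_sup_right.trans le_sup_left

theorem le_an (U : Ultrafilter ℕ) (N : ℕ → Type) [∀ n, AddCommGroup (N n)]
    [∀ n, Module P (N n)] (a : Ideal P)
    (h : ∀ᶠ n in (U : Filter ℕ), a ≤ Module.annihilator P (N n)) : a ≤ An U N := fun c hc =>
  lim_mem_ann _ N (fun _ => c) c (fun j => Eventually.of_forall fun _ => by simp)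
    (h.mono fun _ hn => hn hc)

/-- from a convergent sequence to the form modulo m^j -/
theorem of_cv (U : Filter ℕ) (b : ℕ → Ideal S) (k d : ℕ → S) (c δ : S) (hk : Cv U k c)
    (hd : Cv U d δ) (h : ∀ᶠ n in U, d n * k n ∈ b n) (j : ℕ) :
    ∀ᶠ n in U, δ * c ∈ b n ⊔ maximalIdeal S ^ j :=
  ((hk j).and ((hd j).and h)).mono fun n ⟨h1, h2, h3⟩ => by
    have e : δ * c = d n * k n - (d n * (k n - c) + c * (d n - δ)) := by ring
    rw [e]
    exact sub_mem (Ideal.mem_sup_left h3) (Ideal.mem_sup_right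
      (add_mem (Ideal.mul_mem_left _ _ h1) (Ideal.mul_mem_left _ _ h2)))

theorem cv_const {S : Type} [CommRing S] [IsLocalRing S] (U : Filter ℕ) (c : S) :
    Cv U (fun _ => c) c := fun j => Eventually.of_forall fun _ => by simp

variable {S₀ L κ : Type} [CommRing S₀] [Algebra S₀ S] [Fintype L] (X : RD P S₀ S L κ)

/-- GAL, generators modulo m^j -/
theorem gal_lim (hp : X.𝔭.IsPrime) (hψ : ∀ x ∈ maximalIdeal P, X.ψ x ∈ maximalIdeal S)
    (U : Ultrafilter ℕ) (N : ℕ → Type) [∀ n, AddCommGroup (N n)] [∀ n, Module P (N n)]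
    (E' : Ideal S₀) (ha : ∀ᶠ n in (U : Filter ℕ), X.𝔞 ≤ Module.annihilator P (N n))
    (g : Set S) (hg : E'.map (algebraMap S₀ S) ⊔ X.𝔯 ≤ Ideal.span g)
    (h : ∀ c ∈ g, ∃ δ ∉ X.𝔭, ∀ j, ∀ᶠ n in (U : Filter ℕ),
      δ * c ∈ (Module.annihilator P (N n)).map X.ψ ⊔ X.𝔱 ⊔ maximalIdeal S ^ j) :
    X.Gal E' (An U N) :=
  ⟨le_an U N _ ha, Lc.of_span hp g hg fun c hc => by
    obtain ⟨δ, h1, h2⟩ := h c hc
    exact ⟨δ, h1, mem_lim X.ψ hψ U N X.𝔱 _ h2⟩⟩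

/-- GAL, level ideals: K n are ideals with delta * K n inside (Ann (N n), t), and every
generator of (E', r) is a limit of elements of K n -/
theorem gal_lim2 (hp : X.𝔭.IsPrime) (hψ : ∀ x ∈ maximalIdeal P, X.ψ x ∈ maximalIdeal S)
    (U : Ultrafilter ℕ) (N : ℕ → Type) [∀ n, AddCommGroup (N n)] [∀ n, Module P (N n)]
    (E' : Ideal S₀) (ha : ∀ᶠ n in (U : Filter ℕ), X.𝔞 ≤ Module.annihilator P (N n))
    (δ : S) (hδ : δ ∉ X.𝔭) (K : ℕ → Ideal S)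
    (hK : ∀ᶠ n in (U : Filter ℕ), ∀ s ∈ K n,
      δ * s ∈ (Module.annihilator P (N n)).map X.ψ ⊔ X.𝔱)
    (g : Set S) (hg : E'.map (algebraMap S₀ S) ⊔ X.𝔯 ≤ Ideal.span g)
    (h : ∀ c ∈ g, ∃ k : ℕ → S, Cv (U : Filter ℕ) k c ∧ ∀ᶠ n in (U : Filter ℕ), k n ∈ K n) :
    X.Gal E' (An U N) :=
  gal_lim X hp hψ U N E' ha g hg fun c hc => by
    obtain ⟨k, h1, h2⟩ := h c hc
    exact ⟨δ, hδ, of_cv _ _ k (fun _ => δ) c δ h1 (cv_const _ δ)
      ((hK.and h2).mono fun n hn => hn.1 _ hn.2)⟩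

omit [IsLocalRing S] [IsNoetherianRing S] [Base P] in
theorem RD.Gal.mono {E' E'' : Ideal S₀} {b b' : Ideal P} (h : X.Gal E' b) (hE : E'' ≤ E')
    (hb : b ≤ b') : X.Gal E'' b' :=
  ⟨h.1.trans hb, fun s hs => by
    have k1 : E''.map (algebraMap S₀ S) ⊔ X.𝔯 ≤ E'.map (algebraMap S₀ S) ⊔ X.𝔯 :=
      sup_le_sup_right (Ideal.map_mono hE) _
    have k2 : b.map X.ψ ⊔ X.𝔱 ≤ b'.map X.ψ ⊔ X.𝔱 := sup_le_sup_right (Ideal.map_mono hb) _
    obtain ⟨e, a1, a2⟩ := h.2 s (k1 hs)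
    exact ⟨e, a1, k2 a2⟩⟩

end Vale.Agent.P022G.Pt
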