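import Vale.Agent.P022D.As.EndA

/-!
# P022G, patching at a curve: the abstract interface (pure algebra)

`P` is the ring which acts on the modules (traces and `y1`), `S₀` the framed ring, `S` its cover
by the `y1`, `ψ : P → S`, `𝔭` the framed curve.
-/

set_option linter.all false

open IsLocalRing Filter

noncomputable section

namespace Vale.Agent.P022G.Pt

open Vale.Agent.P022D.PA
open Vale.Agent.P022D.Core (ty)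

/-- the colon ideal `(a : t)` -/
def cl {P : Type} [CommRing P] (a : Ideal P) (t : P) : Ideal P :=
  Submodule.comap (LinearMap.lsmul P P t) a

theorem mem_cl {P : Type} [CommRing P] {a : Ideal P} {t x : P} : x ∈ cl a t ↔ t * x ∈ a := Iff.rfl

/-- flatness of `P / 𝔞 → S / (𝔞, 𝔱)` at `𝔮`, in the form of colon ideals -/
def Col {P S : Type} [CommRing P] [CommRing S] (ψ : P →+* S) (𝔞 : Ideal P) (𝔱 𝔮 : Ideal S) :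
    Prop :=
  ∀ a : Ideal P, 𝔞 ≤ a → ∀ (t : P) (s : S), ψ t * s ∈ a.map ψ ⊔ 𝔱 →
    ∃ h ∉ 𝔮, h * s ∈ (cl a t).map ψ ⊔ 𝔱

/-- inclusion after localising at `𝔮` -/
def Lc {S : Type} [CommRing S] (𝔮 X Y : Ideal S) : Prop := ∀ s ∈ X, ∃ h ∉ 𝔮, h * s ∈ Y

/-- the ring data -/
structure RD (P S₀ S L κ : Type) [CommRing P] [CommRing S₀] [CommRing S] where
  ψ : P →+* S
  𝔭 : Ideal S
  𝔱 : Ideal S
  𝔞 : Ideal P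
  𝔢 : Ideal P
  E : Ideal S₀
  π : P
  π₀ : S₀
  y : κ → S
  α : κ → S₀
  β : κ → S₀
  𝔯 : Ideal S
  τP : L → Set P
  DP : L → P
  IP : Finset L → Ideal P
  τl : L → Set S₀
  Dl : L → S₀
  IJ : Finset L → Ideal S₀
  a : ℕ
  d : ℕ

section
variable {P S₀ S L κ : Type} [CommRing P] [CommRing S₀] [CommRing S] [Algebra S₀ S] [Fintype L]
  (X : RD P S₀ S L κ)

/-- the curve in the trace ring -/
def RD.p0 : Ideal P := X.𝔭.comap X.ψ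

/-- the curve in the framed ring -/
def RD.p1 : Ideal S₀ := X.𝔭.comap (algebraMap S₀ S)

/-- the equations `E'` hold over `P / 𝔟` -/
def RD.Gal (E' : Ideal S₀) (𝔟 : Ideal P) : Prop :=
  X.𝔞 ≤ 𝔟 ∧ Lc X.𝔭 (E'.map (algebraMap S₀ S) ⊔ X.𝔯) (𝔟.map X.ψ ⊔ X.𝔱)

/-- the components of the special fibre through the curve -/
structure RD.Tp (η : Ideal S₀) : Prop where
  pr : η.IsPrime
  le : η ≤ X.p1
  E : X.E ≤ η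
  π : X.π₀ ∈ η
  dim : ((X.d : ℕ) : WithBot ℕ∞) ≤ ringKrullDim (S₀ ⧸ η)

/-- primes of `S` inside the curve on which all equations hold -/
structure RD.Pm (𝔮 : Ideal S) : Prop where
  pr : 𝔮.IsPrime
  le : 𝔮 ≤ X.𝔭
  E : X.E.map (algebraMap S₀ S) ≤ 𝔮
  r : X.𝔯 ≤ 𝔮
  a : X.𝔞.map X.ψ ≤ 𝔮

/-- **the hypotheses on the rings** -/
structure RD.Ok : Prop where
  pr : X.𝔭.IsPrime
  cov : Cov S₀ S X.y X.α X.β X.𝔯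
  tE : X.𝔱 ≤ X.E.map (algebraMap S₀ S) ⊔ X.𝔯
  tp : X.𝔱 ≤ X.𝔭
  ep : X.𝔢 ≤ X.p0
  pi : X.ψ X.π = algebraMap S₀ S X.π₀
  col : Col X.ψ X.𝔞 X.𝔱 X.𝔭
  up : ∀ η : Ideal P, η.IsPrime → X.𝔞 ≤ η → η ≤ X.p0 → ∃ η' : Ideal S, η'.IsPrime ∧ η' ≤ X.𝔭 ∧
    η.map X.ψ ⊔ X.𝔱 ≤ η' ∧
    ((X.a : ℕ) : WithBot ℕ∞) + ringKrullDim (P ⧸ η) ≤ ringKrullDim (S ⧸ η')
  gal0 : X.Gal X.E X.𝔢
  y0 : ∀ 𝔮, X.Pm 𝔮 → X.𝔢.map X.ψ ≤ 𝔮 → ∀ q, X.y q ∈ 𝔮 ∧ algebraMap S₀ S (X.α q) ∈ 𝔮 ∧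
    algebraMap S₀ S (X.β q) ∈ 𝔮
  tau : ∀ 𝔮, X.Pm 𝔮 → ∀ l, (∀ u ∈ X.τP l, X.ψ u ∈ 𝔮) → ∀ u ∈ X.τl l, algebraMap S₀ S u ∈ 𝔮
  dl : ∀ 𝔮, X.Pm 𝔮 → ∀ l, X.ψ (X.DP l) ∈ 𝔮 → algebraMap S₀ S (X.Dl l) ∈ 𝔮
  ij : ∀ 𝔮, X.Pm 𝔮 → X.ψ X.π ∈ 𝔮 → ∀ J,
    (X.IP J ≤ 𝔮.comap X.ψ ↔ X.IJ J ≤ 𝔮.comap (algebraMap S₀ S))
  dom : ∀ η, X.Tp η → ∀ 𝔮 : Ideal S₀, 𝔮.IsPrime → 𝔮 ≤ X.p1 → X.E ≤ 𝔮 → X.π₀ ∈ 𝔮 →
    X.IJ (ty X.τl η) ≤ 𝔮 → η ≤ 𝔮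
  tyI : ∀ η, X.Tp η → X.IJ (ty X.τl η) ≤ η
  tr : ∀ η, X.Tp η → ∀ l, l ∉ ty X.τl η → X.Dl l ∉ η

end

section
variable {P S₀ S L κ : Type} [CommRing P] [Base P] [CommRing S₀] [CommRing S] [Algebra S₀ S]
  [Fintype L] (X : RD P S₀ S L κ) (U : Ultrafilter ℕ) {ι I : Type} [Fintype ι]
  (u : ℕ → ι → P) (a : ι → P) (D : ℕ → P) (d : P) (M : I → ℕ → Type) (G : I → Type)
  [∀ i n, AddCommGroup (M i n)] [∀ i n, Module P (M i n)] [∀ i, AddCommGroup (G i)]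
  [∀ i, Module P (G i)] (ses : I → I → I → Prop) (iJ : Finset L → I)

/-- the annihilator of the patched module -/
abbrev An (U : Ultrafilter ℕ) (N : ℕ → Type) [∀ n, AddCommGroup (N n)] [∀ n, Module P (N n)] :
    Ideal P := Module.annihilator P (P022D.PA.L P (U : Filter ℕ) N)

/-- **the hypotheses on the modules** of characteristic two -/
structure MD : Prop where
  hU : (U : Filter ℕ) ≤ atTop
  hu : ∀ i, Cv (U : Filter ℕ) (fun n => u n i) (a i)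
  hD : Cv (U : Filter ℕ) D d
  dp : d ∉ X.p0
  ue : ∀ n i, u n i ∈ X.𝔢
  dim : X.d = X.a + (Fintype.card ι + 2)
  gd : ∀ i, Gd (U : Filter ℕ) u D (M i) (G i)
  ex : ∀ i j k, ses i j k → ∀ n, ∃ (f : M k n →ₗ[P] M j n) (g : M j n →ₗ[P] M i n),
    (∀ x, f x ∈ J1 (u n) • (⊤ : Submodule P (M j n)) →
      D n • x ∈ J1 (u n) • (⊤ : Submodule P (M k n))) ∧
    Function.Exact f g ∧ Function.Surjective g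
  gal : ∀ J, X.Gal X.E (An U (M (iJ J)))
  pi : ∀ J, X.π ∈ An U (M (iJ J))
  unr : ∀ J l, l ∉ J → ∀ t ∈ X.τP l, t ∈ An U (M (iJ J))
  new : ∀ J l, l ∈ J → ∃ c : ℕ, X.DP l ^ c ∈ An U (M (iJ J))

/-- the component of type `J` through the curve is in the support -/
def Au (J : Finset L) : Prop :=
  ∃ η : Ideal S, X.Pm η ∧ X.Tp (η.comap (algebraMap S₀ S)) ∧
    ty X.τl (η.comap (algebraMap S₀ S)) = J ∧ An U (M (iJ J)) ≤ η.comap X.ψ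

/-- a flat family `C` with reduction `M i` -/
structure FD (i : I) (E' : Ideal S₀) (C : ℕ → Type) [∀ n, AddCommGroup (C n)]
    [∀ n, Module P (C n)] : Prop where
  gd : Gd (U : Filter ℕ) (fun n (o : Option ι) => o.elim X.π (u n)) D C (G i)
  red : ∀ n, ∃ p : C n →ₗ[P] M i n, Function.Surjective p ∧ ∀ x, p x = 0 ↔ ∃ z, x = X.π • z
  le : X.E ≤ E'
  gal : X.Gal E' (An U C)

/-- **input of level lowering** from `J'` to `J` -/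
structure LD (ib : I) (E' : Ideal S₀) (J J' : Finset L) : Prop where
  comb : ∀ N : I → ℕ∞, (∀ i j k, ses i j k → N j = N i + N k) →
    (N ib ≠ 0 ↔ ∃ K, N (iJ K) ≠ 0)
  low : ∀ η, X.Tp η → ty X.τl η = J' → ∀ 𝔮 : Ideal S₀, 𝔮.IsPrime → 𝔮 ≤ η → E' ≤ 𝔮 →
    X.π₀ ∉ 𝔮 → ∃ η', X.Tp η' ∧ ty X.τl η' = J ∧ 𝔮 ≤ η'

/-- **input of the last step** -/
structure ED (ig : I) (E' : Ideal S₀) (C : ℕ → Type) [∀ n, AddCommGroup (C n)]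
    [∀ n, Module P (C n)] (m : Finset L → ℕ) : Prop where
  comb : ∀ N : I → ℕ∞, (∀ i j k, ses i j k → N j = N i + N k) →
    ∀ J, (∀ l, X.τl l ⊆ (E' : Set S₀) → l ∉ J) → (m J : ℕ∞) * N (iJ J) ≤ N ig
  cyc : ∃ (δ : ℕ → P) (e : P), Cv (U : Filter ℕ) δ e ∧
    (∀ 𝔮 : Ideal P, 𝔮.IsPrime → e ∈ 𝔮 → ∃ i, a i ∈ 𝔮) ∧
    ∀ n, ∃ χ : C n, ∀ v : C n, δ n • v ∈ Submodule.span P {χ}
  sep : ∀ J q (𝔮 : Ideal S), X.Pm 𝔮 → An U (M (iJ J)) ≤ 𝔮.comap X.ψ →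
    2 * X.y q - algebraMap S₀ S (X.α q) ∈ 𝔮 → ∃ i, X.ψ (a i) ∈ 𝔮
  len : ∀ (η : Ideal S₀) [η.IsPrime], X.Tp η → E' ≤ η →
    ln η (S₀ ⧸ (E' ⊔ Ideal.span {X.π₀})) ≤ (m (ty X.τl η) : ℕ)
  ch0 : ∀ Z : Ideal S₀, Z.IsPrime → Z ≤ X.p1 → E' ≤ Z → X.π₀ ∉ Z →
    ∃ 𝔮 η : Ideal S₀, 𝔮.IsPrime ∧ X.Tp η ∧ E' ≤ 𝔮 ∧ 𝔮 ≤ Z ∧ 𝔮 ≤ η

end

end Vale.Agent.P022G.Pt
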