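import Vale.Agent.P022G.Pt.Defs2

/-!
# P022G, patching at a curve: going down, lengths, the end game upstairs
-/

set_option linter.all false

open IsLocalRing Filter

noncomputable section

namespace Vale.Agent.P022G.Pt

open Vale.Agent.P022D.PA Vale.Agent.P022D.As.EA

section ring
variable {P S : Type} [CommRing P] [CommRing S] {ψ : P →+* S} {𝔞 : Ideal P} {𝔱 𝔭 : Ideal S}

theorem Lc.le {𝔮 X Y η : Ideal S} (h : Lc 𝔮 X Y) (hη : η.IsPrime) (h1 : η ≤ 𝔮) (h2 : Y ≤ η) :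
    X ≤ η := fun s hs => by
  obtain ⟨k, a, b⟩ := h s hs
  exact (hη.mem_or_mem (h2 b)).resolve_left fun c => a (h1 c)

/-- going down -/
theorem Pur.down (H : Pur ψ 𝔞 𝔱 𝔭) {𝔮 : Ideal S} (hq : 𝔮.IsPrime) (h1 : 𝔮 ≤ 𝔭) (h2 : 𝔱 ≤ 𝔮)
    {η : Ideal P} (hη : η.IsPrime) (h3 : 𝔞 ≤ η) (h4 : η ≤ 𝔮.comap ψ) :
    ∃ η' : Ideal S, η'.IsPrime ∧ η' ≤ 𝔮 ∧ η.map ψ ⊔ 𝔱 ≤ η' ∧ η'.comap ψ = η := by
  let T : Submonoid S :=
    { carrier := {s | ∃ h t, h ∉ 𝔮 ∧ t ∉ η ∧ s = h * ψ t}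
      one_mem' := ⟨1, 1, (Ideal.ne_top_iff_one _).1 hq.ne_top,
        (Ideal.ne_top_iff_one _).1 hη.ne_top, by simp⟩
      mul_mem' := by
        rintro _ _ ⟨h, t, a, b, rfl⟩ ⟨h', t', a', b', rfl⟩
        exact ⟨h * h', t * t', fun c => (hq.mem_or_mem c).elim a a',
          fun c => (hη.mem_or_mem c).elim b b', by rw [map_mul]; ring⟩ }
  have hd : Disjoint ((η.map ψ ⊔ 𝔱 : Ideal S) : Set S) (T : Set S) := by
    rw [Set.disjoint_left]
    rintro _ hs ⟨h, t, a, b, rfl⟩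
    obtain ⟨k, c1, c2⟩ := H 𝔮 hq h1 h2 η h3 t h a hs
    exact b ((hη.mem_or_mem c2).resolve_left fun c => c1 (h4 c))
  obtain ⟨η', p1, p2, p3⟩ := Ideal.exists_le_prime_disjoint _ T hd
  rw [Set.disjoint_left] at p3
  refine ⟨η', p1, fun s hs => ?_, p2, le_antisymm (fun t ht => ?_)
    (Ideal.map_le_iff_le_comap.1 (le_sup_left.trans p2))⟩
  · by_contra c
    exact p3 hs ⟨s, 1, c, (Ideal.ne_top_iff_one _).1 hη.ne_top, by simp⟩
  · by_contra c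
    exact p3 ht ⟨1, t, (Ideal.ne_top_iff_one _).1 hq.ne_top, c, by simp⟩

theorem mem_loc {R : Type} [CommRing R] (η : Ideal R) [η.IsPrime] (I : Ideal R) (x : R) :
    algebraMap R (Localization.AtPrime η) x ∈ I.map (algebraMap R (Localization.AtPrime η)) ↔
      ∃ h ∉ η, h * x ∈ I := by
  rw [IsLocalization.algebraMap_mem_map_algebraMap_iff η.primeCompl]
  rfl

/-- lengths go up -/
theorem Pur.len (H : Pur ψ 𝔞 𝔱 𝔭) (𝔮 : Ideal S) [hq : 𝔮.IsPrime] (h1 : 𝔮 ≤ 𝔭) (h2 : 𝔱 ≤ 𝔮)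
    {I : Ideal P} (h3 : 𝔞 ≤ I) {J : Ideal S} (h4 : Lc 𝔮 J (I.map ψ ⊔ 𝔱)) :
    ln (𝔮.comap ψ) (P ⧸ I) ≤ ln 𝔮 (S ⧸ J) := by
  rw [EtlP.ln_quot, EtlP.ln_quot, Module.length_quotient, Module.length_quotient]
  let A := Localization.AtPrime (𝔮.comap ψ)
  let B := Localization.AtPrime 𝔮
  let f : Ideal A → Ideal B := fun K =>
    ((K.comap (algebraMap P A)).map ψ ⊔ 𝔱).map (algebraMap S B)
  have hm : Monotone f := fun K K' h =>
    Ideal.map_mono (sup_le_sup_right (Ideal.map_mono (Ideal.comap_mono h)) _)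
  have hs : ∀ K K' : Ideal A, I.map (algebraMap P A) ≤ K → K < K' → f K < f K' := by
    intro K K' hK h
    refine lt_of_le_of_ne (hm h.le) fun e => h.not_ge ?_
    rw [← IsLocalization.map_comap (𝔮.comap ψ).primeCompl A K']
    refine Ideal.map_le_iff_le_comap.2 fun t ht => ?_
    have : algebraMap S B (ψ t) ∈ f K := by
      rw [e]
      exact Ideal.mem_map_of_mem _ (Ideal.mem_sup_left (Ideal.mem_map_of_mem _ ht))
    obtain ⟨h, a1, a2⟩ := (mem_loc 𝔮 _ _).1 this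
    obtain ⟨k, b1, b2⟩ := H 𝔮 hq h1 h2 _
      (h3.trans (Ideal.map_le_iff_le_comap.1 hK)) t h a1 a2
    have u : IsUnit (algebraMap P A k) :=
      IsLocalization.map_units A (⟨k, b1⟩ : (𝔮.comap ψ).primeCompl)
    have b3 : algebraMap P A k * algebraMap P A t ∈ K := by rw [← map_mul]; exact b2
    exact (Ideal.unit_mul_mem_iff_mem K u).1 b3
  have hJ : J.map (algebraMap S B) ≤ f (I.map (algebraMap P A)) := by
    refine Ideal.map_le_iff_le_comap.2 fun s hs => (mem_loc 𝔮 _ _).2 ?_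
    obtain ⟨h, a1, a2⟩ := h4 s hs
    have mo : I.map ψ ⊔ 𝔱 ≤ ((I.map (algebraMap P A)).comap (algebraMap P A)).map ψ ⊔ 𝔱 :=
      sup_le_sup_right (Ideal.map_mono Ideal.le_comap_map) _
    exact ⟨h, a1, mo a2⟩
  rw [Order.coheight_eq]
  refine iSup₂_le fun p hp => ?_
  have hp' : ∀ i, I.map (algebraMap P A) ≤ p i := fun i => hp.trans (p.head_le i)
  let p' : LTSeries (Ideal B) := ⟨p.length, fun i => f (p i), fun i => hs _ _ (hp' _) (p.step i)⟩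
  exact Order.length_le_coheight (p := p') (hJ.trans (hm hp))

/-- the end game upstairs -/
theorem core2 [IsNoetherianRing S] {π : P} (H : Pur ψ 𝔞 𝔱 𝔭) (H' : Tf ψ 𝔞 𝔱 𝔭 π)
    (η : Ideal S) [hη : η.IsPrime] (h1 : η ≤ 𝔭) (h2 : 𝔱 ≤ η) {a : Ideal P} (h3 : 𝔞 ≤ a)
    {b : Ideal S} (h4 : Lc η b (a.map ψ ⊔ 𝔱)) (h5 : 𝔱 ≤ b) (h6 : ψ π ∈ η) {m : ℕ}
    (h7 : ln η (S ⧸ (b ⊔ Ideal.span {ψ π})) ≤ m)
    (h8 : (m : ℕ∞) ≤ ln (η.comap ψ) (P ⧸ (a ⊔ Ideal.span {π})))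
    (h9 : ∀ t : P, π * t ∈ a → ∃ h₀ : P, ψ h₀ ∉ η ∧ h₀ * t ∈ a) :
    ∃ h ∉ η, ∀ t ∈ a, h * ψ t ∈ b := by
  have one : (1 : S) ∉ η := (Ideal.ne_top_iff_one _).1 hη.ne_top
  have lc : Lc η (a.map ψ ⊔ b) (a.map ψ ⊔ 𝔱) := fun s hs => by
    obtain ⟨z, hz, w, hw, rfl⟩ := Submodule.mem_sup.1 hs
    obtain ⟨h, a1, a2⟩ := h4 w hw
    exact ⟨h, a1, by
      rw [mul_add]; exact add_mem (Ideal.mem_sup_left (Ideal.mul_mem_left _ _ hz)) a2⟩
  have hl : (m : ℕ∞) ≤ ln η (S ⧸ (a.map ψ ⊔ b ⊔ Ideal.span {ψ π})) :=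
    h8.trans (H.len η h1 h2 (h3.trans le_sup_left) fun s hs => by
      obtain ⟨z, hz, w, hw, rfl⟩ := Submodule.mem_sup.1 hs
      obtain ⟨h, a1, a2⟩ := lc z hz
      refine ⟨h, a1, ?_⟩
      rw [mul_add]
      have mo : a.map ψ ⊔ 𝔱 ≤ (a ⊔ Ideal.span {π}).map ψ ⊔ 𝔱 :=
        sup_le_sup_right (Ideal.map_mono le_sup_left) _
      refine add_mem (mo a2)
        (Ideal.mem_sup_left (Ideal.mul_mem_left _ _ ?_))
      rw [Ideal.map_sup, Ideal.map_span, Set.image_singleton]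
      exact Ideal.mem_sup_right hw)
  have hq : ln η (S ⧸ (a.map ψ ⊔ b ⊔ Ideal.span {ψ π})) ≤
      ln η ((S ⧸ (a.map ψ ⊔ b)) ⧸ Ideal.span {ψ π} • (⊤ : Submodule S (S ⧸ (a.map ψ ⊔ b)))) := by
    refine ln_le η (Submodule.liftQ _ (Submodule.factor le_sup_left) ?_) fun z => ?_
    · refine Submodule.smul_le.2 fun r hr x _ => ?_
      obtain ⟨x, rfl⟩ := Submodule.Quotient.mk_surjective _ x
      rw [LinearMap.mem_ker, map_smul]
      change r • Submodule.Quotient.mk x = 0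
      rw [← Submodule.Quotient.mk_smul, Submodule.Quotient.mk_eq_zero]
      exact Ideal.mem_sup_right (Ideal.mul_mem_right _ _ hr)
    · obtain ⟨x, rfl⟩ := Submodule.Quotient.mk_surjective _ z
      exact ⟨Submodule.Quotient.mk (Submodule.Quotient.mk x), rfl⟩
  obtain ⟨h, a1, a2⟩ := endC S η (S ⧸ (a.map ψ ⊔ b)) (ψ π) 1 (Submodule.Quotient.mk 1) b h6 one
    (fun v hv => by
      obtain ⟨x, rfl⟩ := Submodule.Quotient.mk_surjective _ v
      rw [← Submodule.Quotient.mk_smul, Submodule.Quotient.mk_eq_zero] at hv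
      obtain ⟨k, b1, b2⟩ := lc _ hv
      obtain ⟨k', c1, c2⟩ := H' η hη h1 h2 a h3 h9 (k * x) (by
        rw [mul_left_comm]; exact b2)
      refine ⟨k' * k, fun c => (hη.mem_or_mem c).elim c1 b1, ?_⟩
      rw [← Submodule.Quotient.mk_smul, Submodule.Quotient.mk_eq_zero, smul_eq_mul, mul_assoc]
      exact sup_le_sup_left h5 _ c2)
    (fun v => by
      obtain ⟨x, rfl⟩ := Submodule.Quotient.mk_surjective _ v
      refine Submodule.mem_sup_left (Submodule.mem_span_singleton.2 ⟨x, ?_⟩)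
      rw [← Submodule.Quotient.mk_smul, one_smul, smul_eq_mul, mul_one])
    (fun s hs => Module.mem_annihilator.2 fun v => by
      obtain ⟨x, rfl⟩ := Submodule.Quotient.mk_surjective _ v
      rw [← Submodule.Quotient.mk_smul, Submodule.Quotient.mk_eq_zero]
      exact Ideal.mem_sup_right (Ideal.mul_mem_right _ _ hs))
    (h7.trans (hl.trans hq)) (ne_top_of_le_ne_top (ENat.coe_ne_top m) h7)
  refine ⟨h, a1, fun t ht => a2 _ (Module.mem_annihilator.2 fun v => ?_)⟩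
  obtain ⟨x, rfl⟩ := Submodule.Quotient.mk_surjective _ v
  rw [← Submodule.Quotient.mk_smul, Submodule.Quotient.mk_eq_zero]
  exact Ideal.mem_sup_left (Ideal.mul_mem_right _ _ (Ideal.mem_map_of_mem _ ht))

end ring

end Vale.Agent.P022G.Pt
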