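import Vale.Agent.P022G.Pt.A

/-!
# P022G, patching at a curve: supports
-/

set_option linter.all false

open IsLocalRing Filter

noncomputable section

namespace Vale.Agent.P022G.Pt

open Vale.Agent.P022D.PA Vale.Agent.P022D.As.EA
open Vale.Agent.P022D.Core (ty)

section gen
variable {P : Type} [CommRing P]

theorem ann_quot {Y : Type} [AddCommGroup Y] [Module P Y] [Module.Finite P Y] {η I : Ideal P}
    (hη : η.IsPrime) (h1 : Module.annihilator P Y ≤ η) (h2 : I ≤ η) :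
    Module.annihilator P (Y ⧸ I • (⊤ : Submodule P Y)) ≤ η := by
  have : (⟨η, hη⟩ : PrimeSpectrum P) ∈ Module.support P (Y ⧸ I • (⊤ : Submodule P Y)) := by
    rw [Module.support_quotient]
    exact ⟨Module.mem_support_iff_of_finite.2 h1, h2⟩
  exact Module.mem_support_iff_of_finite.1 this

theorem drop [IsNoetherianRing P] {Y : Type} [AddCommGroup Y] [Module P Y] [Module.Finite P Y]
    {η : Ideal P} (hη : η.IsPrime) (h1 : Module.annihilator P Y ≤ η) {t : P} (h2 : t ∈ η)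
    (h3 : ∀ v : Y, t • v = 0 → ∃ h ∉ η, h • v = 0) :
    ∃ q : Ideal P, q.IsPrime ∧ q ≤ η ∧ Module.annihilator P Y ≤ q ∧ t ∉ q := by
  obtain ⟨q, a1, a2, a3, a4, -⟩ := chn P η Y Unit (fun _ => t) (fun T i hi v hv => by
    have e : T = ∅ := Finset.eq_empty_of_forall_notMem fun j hj => hi hj
    subst e
    simpa using h3 v (by simpa using hv))
    (ann_quot hη h1 (Ideal.span_le.2 (by rintro _ ⟨_, rfl⟩; exact h2)))
  exact ⟨q, a1, a2, a3, a4 ()⟩

theorem inc {S₀ S κ : Type} [CommRing S₀] [CommRing S] [Algebra S₀ S] {y : κ → S} {α β : κ → S₀}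
    {𝔯 I J : Ideal S} (hc : Cov S₀ S y α β 𝔯) (hI : I.IsPrime) (h1 : 𝔯 ≤ I) (h2 : I ≤ J)
    (h3 : J.comap (algebraMap S₀ S) ≤ I.comap (algebraMap S₀ S)) : J ≤ I := by
  intro x hx
  by_contra c
  haveI := hc.fin
  obtain ⟨p, p1, p2⟩ := IsIntegral.of_finite S₀ (Ideal.Quotient.mk 𝔯 x)
  have p3 : p.eval₂ (algebraMap S₀ S) x ∈ I := h1 (Ideal.Quotient.eq_zero_iff_mem.1 (by
    rw [Polynomial.hom_eval₂]; exact p2))
  haveI : Nontrivial (S₀ ⧸ I.comap (algebraMap S₀ S)) :=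
    Ideal.Quotient.nontrivial_iff.2 (Ideal.IsPrime.ne_top inferInstance)
  exact (Ideal.comap_lt_comap_of_root_mem_sdiff h2 ⟨hx, c⟩ (p1.map _).ne_zero p3).not_ge h3

theorem gup {S₀ S κ : Type} [CommRing S₀] [CommRing S] [Algebra S₀ S] {y : κ → S} {α β : κ → S₀}
    {𝔯 I : Ideal S} (hc : Cov S₀ S y α β 𝔯) (h1 : 𝔯 ≤ I) {η : Ideal S₀} (hη : η.IsPrime)
    (h2 : I.comap (algebraMap S₀ S) ≤ η) :
    ∃ Q : Ideal S, Q.IsPrime ∧ I ≤ Q ∧ Q.comap (algebraMap S₀ S) = η := by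
  haveI := hc.fin
  have e : ∀ K : Ideal (S ⧸ 𝔯), K.comap (algebraMap S₀ (S ⧸ 𝔯)) =
      (K.comap (Ideal.Quotient.mk 𝔯)).comap (algebraMap S₀ S) := fun K => by
    rw [Ideal.comap_comap]; rfl
  obtain ⟨Q, q1, q2, q3⟩ := Ideal.exists_ideal_over_prime_of_isIntegral η
    (I.map (Ideal.Quotient.mk 𝔯)) (by
      rw [e, Ideal.comap_map_of_surjective _ Ideal.Quotient.mk_surjective,
        ← RingHom.ker_eq_comap_bot, Ideal.mk_ker, sup_eq_left.2 h1]
      exact h2)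
  exact ⟨Q.comap (Ideal.Quotient.mk 𝔯), inferInstance, Ideal.map_le_iff_le_comap.1 q1,
    by rw [← e, q3]⟩

end gen

section ring
variable {P S₀ S L κ : Type} [CommRing P] [CommRing S₀] [CommRing S] [Algebra S₀ S]
  [Fintype L] [Fintype κ] [IsNoetherianRing S₀] {X : RD P S₀ S L κ}

theorem pm_of {E' : Ideal S₀} {𝔟 : Ideal P} (g : X.Gal E' 𝔟) (hE : X.E ≤ E') {η : Ideal S}
    (hη : η.IsPrime) (h1 : η ≤ X.𝔭) (h2 : 𝔟.map X.ψ ⊔ X.𝔱 ≤ η) :
    X.Pm η ∧ E' ≤ η.comap (algebraMap S₀ S) := by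
  have := g.2.le hη h1 h2
  exact ⟨⟨hη, h1, (Ideal.map_mono hE).trans (le_sup_left.trans this), le_sup_right.trans this,
    (Ideal.map_mono g.1).trans (le_sup_left.trans h2)⟩,
    Ideal.map_le_iff_le_comap.1 (le_sup_left.trans this)⟩

theorem pm_t (H : X.Ok2) {η : Ideal S} (h : X.Pm η) : X.𝔱 ≤ η := H.tE.trans (sup_le h.E h.r)

theorem pm_p (H : X.Ok2) : X.Pm X.𝔭 :=
  (pm_of H.gal0 le_rfl H.pr le_rfl (sup_le (Ideal.map_le_iff_le_comap.2 H.ep) H.tp)).1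

theorem dim_eq (H : X.Ok2) {η : Ideal S} (h : X.Pm η) :
    ringKrullDim (S ⧸ η) = ringKrullDim (S₀ ⧸ η.comap (algebraMap S₀ S)) :=
  haveI := h.pr
  ((etl S₀ S κ X.y X.α X.β X.𝔯 H.cov).1 η h.r).1

theorem tp_of (H : X.Ok2) {η : Ideal S} (h : X.Pm η) (h1 : X.ψ X.π ∈ η)
    (h2 : ((X.d : ℕ) : WithBot ℕ∞) ≤ ringKrullDim (S ⧸ η)) : X.Tp (η.comap (algebraMap S₀ S)) :=
  haveI := h.pr
  ⟨inferInstance, Ideal.comap_mono h.le, Ideal.map_le_iff_le_comap.1 h.E,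
    by rw [H.pi] at h1; exact h1, by rwa [← dim_eq H h]⟩

theorem last (H : X.Ok2) {I 𝔮 : Ideal S} (h : X.Pm 𝔮) (h1 : X.𝔢.map X.ψ ≤ 𝔮) (h2 : X.𝔯 ≤ I)
    (h3 : I.comap (algebraMap S₀ S) ≤ 𝔮.comap (algebraMap S₀ S)) : I ≤ 𝔮 :=
  haveI := h.pr
  (etl S₀ S κ X.y X.α X.β X.𝔯 H.cov).2 I 𝔮 h2 h.r (fun q => (H.y0 𝔮 h h1 q).1)
    (fun q => (H.y0 𝔮 h h1 q).2) h3

theorem tp_le (H : X.Ok2) {η η' : Ideal S₀} (h : X.Tp η) (h' : X.Tp η')
    (e : ty X.τl η = ty X.τl η') : η ≤ η' :=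
  H.dom η h η' h'.pr h'.le h'.E h'.π (e ▸ H.tyI η' h')

end ring

section
variable {P S₀ S L κ : Type} [CommRing P] [Base P] [CommRing S₀] [CommRing S] [Algebra S₀ S]
  [Fintype L] [Fintype κ] [IsNoetherianRing S₀] {X : RD P S₀ S L κ} {U : Ultrafilter ℕ}
  {ι I : Type} [Fintype ι]
  {u : ℕ → ι → P} {a : ι → P} {D : ℕ → P} {d : P} {M : I → ℕ → Type} {G : I → Type}
  [∀ i n, AddCommGroup (M i n)] [∀ i n, Module P (M i n)] [∀ i, AddCommGroup (G i)]
  [∀ i, Module P (G i)] {ses : I → I → I → Prop} {iJ : Finset L → I}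

theorem typ (H : X.Ok2) (K : MD X U u a D d M G ses iJ) {η : Ideal S} (h : X.Pm η)
    (ht : X.Tp (η.comap (algebraMap S₀ S))) {J : Finset L}
    (h1 : An U (M (iJ J)) ≤ η.comap X.ψ) : ty X.τl (η.comap (algebraMap S₀ S)) = J := by
  classical
  haveI := h.pr
  ext l
  constructor
  · intro k
    by_contra c
    exact (Finset.mem_filter.1 k).2 fun v hv =>
      H.tau η h l (fun t ht => h1 (K.unr J l c t ht)) v hv
  · intro k
    by_contra c
    obtain ⟨e, he⟩ := K.new J l k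
    exact H.tr _ ht l c (H.dl η h l
      (Ideal.IsPrime.mem_of_pow_mem (I := η.comap X.ψ) inferInstance _ (h1 he)))

theorem MD.ap (H : X.Ok2) (K : MD X U u a D d M G ses iJ) (i : ι) : a i ∈ X.p0 :=
  H.ep ((limi P U _ _ X.𝔢 (K.hu i)).1 (Eventually.of_forall fun n => K.ue n i))

/-- from a modular surface to the component -/
theorem upJ (H : X.Ok2) (K : MD X U u a D d M G ses iJ) {J : Finset L} {E : Ideal P}
    (hE : E.IsPrime) (h1 : E ≤ X.p0) (h2 : (2 : WithBot ℕ∞) ≤ ringKrullDim (P ⧸ E))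
    (h3 : Module.annihilator P (G (iJ J)) ≤ E) : Au X U M iJ J := by
  obtain ⟨-, η, t1, t2, t3, -, t5⟩ := etaC P U K.hU ι u D _ _ (K.gd (iJ J)) a d K.hu K.hD E h3
    fun c => K.dp (h1 c)
  obtain ⟨η', s1, s2, s3, s4⟩ := H.up η t1 ((K.gal J).1.trans t3) (t2.trans h1) (t3 (K.pi J))
  have s5 : An U (M (iJ J)) ≤ η'.comap X.ψ :=
    t3.trans (Ideal.map_le_iff_le_comap.1 (le_sup_left.trans s3))
  have hp := (pm_of (K.gal J) le_rfl s1 s2
    (sup_le (Ideal.map_le_iff_le_comap.2 s5) (le_sup_right.trans s3))).1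
  have ht := tp_of H hp (s5 (K.pi J)) (by
    refine le_trans ?_ s4
    rw [K.dim, Nat.cast_add]
    refine add_le_add le_rfl (le_trans ?_ t5)
    rw [Nat.cast_add]
    exact add_le_add le_rfl h2)
  exact ⟨η', hp, ht, typ H K hp ht s5, s5⟩

/-- from the component to the primes of level zero -/
theorem dnJ (H : X.Ok2) (K : MD X U u a D d M G ses iJ) {J : Finset L} (h : Au X U M iJ J)
    {E : Ideal P} (hE : E.IsPrime) (h1 : E ≤ X.p0) (h2 : X.𝔢 ≤ E) (h3 : X.π ∈ E)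
    (h4 : X.IP J ≤ E) : Module.annihilator P (G (iJ J)) ≤ E := by
  obtain ⟨η, hp, ht, rfl, ha⟩ := h
  obtain ⟨E', s1, s2, s3, s4⟩ := H.pur.down H.pr le_rfl H.tp hE (H.gal0.1.trans h2) h1
  have s5 : X.𝔢.map X.ψ ≤ E' := (Ideal.map_mono h2).trans (le_sup_left.trans s3)
  obtain ⟨hq, hq'⟩ := pm_of H.gal0 le_rfl s1 s2 (sup_le s5 (le_sup_right.trans s3))
  have s6 : X.ψ X.π ∈ E' := by
    change X.π ∈ E'.comap X.ψ
    rwa [s4]
  have s7 := last H hq s5 hp.r (H.dom _ ht _ inferInstance (Ideal.comap_mono s2) hq'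
    (by rw [H.pi] at s6; exact s6) ((H.ij E' hq s6 _).1 (by rwa [s4])))
  have s8 : An U (M (iJ _)) ≤ E := ha.trans ((Ideal.comap_mono s7).trans s4.le)
  intro t ht'
  have := dsc lim limi smu fgC boxC P U K.hU ι u _ (K.gd _).gen E s8 (fun n i => h2 (K.ue n i))
    (fun n => D n * t) (d * t) (cv_mul K.hD (cv_const t)) fun n x => by
      obtain ⟨β, -, b2, -⟩ := (K.gd (iJ (ty X.τl (η.comap (algebraMap S₀ S))))).fib n
      rw [mul_smul]
      exact b2 _ (by rw [map_smul, Module.mem_annihilator.1 ht'])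
  exact (hE.mem_or_mem this).resolve_left fun c => K.dp (h1 c)

/-- the parameters do not vanish on a component -/
theorem par (H : X.Ok2) (K : MD X U u a D d M G ses iJ) {J : Finset L} {η : Ideal S}
    (hp : X.Pm η) (ht : X.Tp (η.comap (algebraMap S₀ S)))
    (ha : An U (M (iJ J)) ≤ η.comap X.ψ) (i : ι) : X.ψ (a i) ∉ η := by
  intro c
  haveI := hp.pr
  haveI := H.pr
  haveI : X.p0.IsPrime := Ideal.comap_isPrime _ _
  haveI := fgC P U _ (K.gd (iJ J)).gen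
  obtain ⟨q, q1, q2, q3, q4⟩ := drop (η := η.comap X.ψ) inferInstance ha (t := a i) c
    fun v hv => by
      obtain ⟨h, a1, a2⟩ := regC P U K.hU ι u D _ _ (K.gd (iJ J)) a d K.hu K.hD X.p0 (K.ap H) K.dp
        ∅ i (by simp) v (by rw [hv]; exact zero_mem _)
      exact ⟨h, fun k => a1 (Ideal.comap_mono hp.le k), by simpa using a2⟩
  obtain ⟨η', s1, s2, s3, s4⟩ := H.pur.down hp.pr hp.le (pm_t H hp) q1 ((K.gal J).1.trans q3) q2
  have s5 : An U (M (iJ J)) ≤ η'.comap X.ψ := q3.trans s4.ge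
  have hq := (pm_of (K.gal J) le_rfl s1 (s2.trans hp.le)
    (sup_le (Ideal.map_le_iff_le_comap.2 s5) (le_sup_right.trans s3))).1
  have hs := tp_of H hq (s5 (K.pi J)) (by
    refine le_trans ht.dim ?_
    rw [← dim_eq H hp]
    exact ringKrullDim_le_of_surjective (Ideal.Quotient.factor s2)
      (Ideal.Quotient.factor_surjective s2))
  have := inc H.cov s1 hq.r s2 (tp_le H ht hs ((typ H K hp ht ha).trans (typ H K hq hs s5).symm))
  exact q4 (by rw [← s4]; exact this c)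

end

end Vale.Agent.P022G.Pt
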