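import Vale.Agent.P022G.Pt.B

/-!
# P022G, patching at a curve: level lowering and the last step
-/

set_option linter.all false

open IsLocalRing Filter

noncomputable section

namespace Vale.Agent.P022G.Pt

open Vale.Agent.P022D.PA Vale.Agent.P022D.As.EA
open Vale.Agent.P022D.Core (ty)

section
variable {P S₀ S L κ : Type} [CommRing P] [Base P] [CommRing S₀] [CommRing S] [Algebra S₀ S]
  [Fintype L] [Fintype κ] [IsNoetherianRing S₀] {X : RD P S₀ S L κ} {U : Ultrafilter ℕ}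
  {ι I : Type} [Fintype ι]
  {u : ℕ → ι → P} {a : ι → P} {D : ℕ → P} {d : P} {M : I → ℕ → Type} {G : I → Type}
  [∀ i n, AddCommGroup (M i n)] [∀ i n, Module P (M i n)] [∀ i, AddCommGroup (G i)]
  [∀ i, Module P (G i)] {ses : I → I → I → Prop} {iJ : Finset L → I}
  {C : ℕ → Type} [∀ n, AddCommGroup (C n)] [∀ n, Module P (C n)]

theorem MD.add (H : X.Ok2) (K : MD X U u a D d M G ses iJ) (η : Ideal P) [η.IsPrime]
    (h : η ≤ X.p0) (i j k : I) (hs : ses i j k) :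
    ln η (P022D.PA.L P U (M j)) = ln η (P022D.PA.L P U (M i)) + ln η (P022D.PA.L P U (M k)) := by
  haveI := H.pr
  haveI : X.p0.IsPrime := Ideal.comap_isPrime _ _
  choose f g a1 a2 a3 using K.ex i j k hs
  have := (exaC P U K.hU ι u D (M k) (M j) (M i) (G j) (G i) f g a1 a2 a3 (K.gd k).gen (K.gd j)
    (K.gd i) a d K.hu K.hD X.p0 (K.ap H) K.dp).2 η h
  rw [this, add_comm]

theorem MD.ne (K : MD X U u a D d M G ses iJ) (η : Ideal P) [η.IsPrime] (i : I) :
    ln η (P022D.PA.L P U (M i)) ≠ 0 ↔ An U (M i) ≤ η := by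
  rw [Ne, (len0 P η _).2 (fgC P U _ (K.gd i).gen), not_not]

theorem FD.map (K : MD X U u a D d M G ses iJ) {i : I} {E' : Ideal S₀}
    (F : FD X U u D M G i E' C) : ∃ p : P022D.PA.L P U C →ₗ[P] P022D.PA.L P U (M i),
      Function.Surjective p ∧ ∀ x, p x = 0 ↔ ∃ z, x = X.π • z := by
  choose p p1 p2 using F.red
  obtain ⟨e1, e2⟩ := rexC P U K.hU C C (M i) (fun n => LinearMap.lsmul P (C n) X.π) p
    (fun n x => by rw [p2]; exact ⟨fun ⟨z, h⟩ => ⟨z, h.symm⟩, fun ⟨z, h⟩ => ⟨z, h.symm⟩⟩) p1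
  have e : ∀ z, Lmap (U : Filter ℕ) (fun n => LinearMap.lsmul P (C n) X.π) z = X.π • z := by
    intro z
    obtain ⟨z, rfl⟩ := Submodule.Quotient.mk_surjective _ z
    rfl
  refine ⟨_, e2, fun x => (e1 x).trans ?_⟩
  exact ⟨fun ⟨z, h⟩ => ⟨z, by rw [← h, e]⟩, fun ⟨z, h⟩ => ⟨z, by rw [h, e]⟩⟩

theorem FD.reg (H : X.Ok2) (K : MD X U u a D d M G ses iJ) {i : I} {E' : Ideal S₀}
    (F : FD X U u D M G i E' C) (hπ : X.π ∈ X.p0) (v : P022D.PA.L P U C) (hv : X.π • v = 0) :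
    ∃ h ∉ X.p0, h • v = 0 := by
  haveI := H.pr
  haveI : X.p0.IsPrime := Ideal.comap_isPrime _ _
  obtain ⟨h, a1, a2⟩ := regC P U K.hU (Option ι) _ D C (G i) F.gd
    (fun o => o.elim X.π a) d
    (fun o => by cases o with
      | none => exact cv_const _
      | some i => exact K.hu i) K.hD X.p0
    (fun o => by cases o with
      | none => exact hπ
      | some i => exact K.ap H i) K.dp ∅ none (by simp) v (by
        change X.π • v ∈ _
        rw [hv]; exact zero_mem _)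
  exact ⟨h, a1, by simpa using a2⟩

/-- **level lowering** -/
theorem low (H : X.Ok2) (K : MD X U u a D d M G ses iJ) {ib : I} {E' : Ideal S₀}
    (F : FD X U u D M G ib E' C) {J J' : Finset L} (W : LD X ses iJ ib E' J J')
    (h : Au X U M iJ J') : Au X U M iJ J := by
  obtain ⟨η, hp, ht, hJ, ha⟩ := h
  haveI := hp.pr
  haveI := H.pr
  haveI := fgC P U _ F.gd.gen
  obtain ⟨p, p1, p2⟩ := F.map K
  have le0 : η.comap X.ψ ≤ X.p0 := Ideal.comap_mono hp.le
  have n1 : An U (M ib) ≤ η.comap X.ψ := (K.ne _ _).1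
    ((W.comb _ (K.add H _ le0)).2 ⟨J', (K.ne _ _).2 ha⟩)
  have n2 : An U C ≤ η.comap X.ψ := le_trans (fun t ht => Module.mem_annihilator.2 fun v => by
    obtain ⟨v, rfl⟩ := p1 v
    rw [← map_smul, Module.mem_annihilator.1 ht, map_zero]) n1
  have hπ : X.π ∈ η.comap X.ψ := ha (K.pi _)
  obtain ⟨q, q1, q2, q3, q4⟩ := drop (η := η.comap X.ψ) inferInstance n2 hπ fun v hv => by
    obtain ⟨h, a1, a2⟩ := F.reg H K (le0 hπ) v hv
    exact ⟨h, fun k => a1 (le0 k), a2⟩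
  obtain ⟨q', s1, s2, s3, s4⟩ := H.pur.down hp.pr hp.le (pm_t H hp) q1 (F.gal.1.trans q3) q2
  obtain ⟨hq, hq'⟩ := pm_of F.gal F.le s1 (s2.trans hp.le)
    (sup_le ((Ideal.map_mono q3).trans (le_sup_left.trans s3)) (le_sup_right.trans s3))
  obtain ⟨η₁, t1, t2, t3⟩ := W.low _ ht hJ (q'.comap (algebraMap S₀ S)) inferInstance
    (Ideal.comap_mono s2) hq' fun c => q4 (by
      rw [← s4]
      change X.ψ X.π ∈ q'
      rw [H.pi]; exact c)
  obtain ⟨Q, r1, r2, rfl⟩ := gup H.cov hq.r t1.pr t3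
  have r3 : Q ≤ X.𝔭 :=
    last H (pm_p H) (Ideal.map_le_iff_le_comap.2 H.ep) (hq.r.trans r2) t1.le
  have hQ : X.Pm Q := ⟨r1, r3, hq.E.trans r2, hq.r.trans r2, hq.a.trans r2⟩
  have r4 : X.π ∈ Q.comap X.ψ := by
    change X.ψ X.π ∈ Q
    rw [H.pi]; exact t1.π
  have r5 : An U (M ib) ≤ Q.comap X.ψ := by
    refine le_trans (fun t ht => Module.mem_annihilator.2 fun v => ?_)
      (ann_quot (Y := P022D.PA.L P U C) (I := Ideal.span {X.π}) inferInstance
        (q3.trans (s4.ge.trans (Ideal.comap_mono r2)))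
        ((Ideal.span_singleton_le_iff_mem _).2 r4))
    obtain ⟨v, rfl⟩ := Submodule.Quotient.mk_surjective _ v
    obtain ⟨z, hz⟩ := (p2 (t • v)).1 (by rw [map_smul, Module.mem_annihilator.1 ht])
    rw [← Submodule.Quotient.mk_smul, Submodule.Quotient.mk_eq_zero, hz]
    exact Submodule.smul_mem_smul (Ideal.mem_span_singleton_self _) Submodule.mem_top
  obtain ⟨J'', hK⟩ := (W.comb _ (K.add H _ (Ideal.comap_mono r3))).1 ((K.ne _ _).2 r5)
  have r6 := (K.ne _ _).1 hK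
  have e : J'' = J := (typ H K hQ t1 r6).symm.trans t2
  exact ⟨Q, hQ, t1, t2, e ▸ r6⟩

/-- **the last step** -/
theorem fin [IsNoetherianRing S] (H : X.Ok2) (K : MD X U u a D d M G ses iJ) {ig : I}
    {E' : Ideal S₀} (F : FD X U u D M G ig E' C) {m : Finset L → ℕ}
    (W : ED X U a M ses iJ ig E' C m) {Z : Ideal P} (hZ : Z.IsPrime) (z1 : Z ≤ X.p0)
    (z2 : X.𝔢 ≤ Z) (z3 : X.π ∉ Z) (z4 : X.Gal E' Z) :
    ∃ J : Finset L, X.IP J ≤ X.p0 ∧ (∀ l, X.τl l ⊆ (E' : Set S₀) → l ∉ J) ∧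
      (Au X U M iJ J → An U C ≤ Z) := by
  classical
  haveI := H.pr
  haveI := fgC P U _ F.gd.gen
  obtain ⟨Z', s1, s2, s3, s4⟩ := H.pur.down H.pr le_rfl H.tp hZ z4.1 z1
  obtain ⟨hq, hq'⟩ := pm_of z4 F.le s1 s2 s3
  obtain ⟨𝔮, η₀, q1, q2, q3, q4, q5⟩ := W.ch0 (Z'.comap (algebraMap S₀ S)) inferInstance
    (Ideal.comap_mono s2) hq' fun c => z3 (by
      rw [← s4]
      change X.ψ X.π ∈ Z'
      rw [H.pi]; exact c)
  have hπ : X.ψ X.π ∈ X.𝔭 := by rw [H.pi]; exact q2.le q2.π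
  have hJ : ∀ l, X.τl l ⊆ (E' : Set S₀) → l ∉ ty X.τl η₀ := fun l h c =>
    (Finset.mem_filter.1 c).2 fun v hv => q5 (q3 (h hv))
  refine ⟨ty X.τl η₀, (H.ij _ (pm_p H) hπ _).2 ((H.tyI _ q2).trans q2.le), hJ, ?_⟩
  rintro ⟨η, hp, ht, hty, ha⟩
  haveI := hp.pr
  have e : η.comap (algebraMap S₀ S) = η₀ :=
    le_antisymm (tp_le H ht q2 hty) (tp_le H q2 ht hty.symm)
  subst e
  have le0 : η.comap X.ψ ≤ X.p0 := Ideal.comap_mono hp.le
  have h1 : (1 : P) ∉ η.comap X.ψ := (Ideal.ne_top_iff_one _).1 (Ideal.IsPrime.ne_top inferInstance)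
  obtain ⟨p, p1, p2⟩ := F.map K
  obtain ⟨δ, e, c1, c2, c3⟩ := W.cyc
  have he : e ∉ η.comap X.ψ := fun c => by
    obtain ⟨i, hi⟩ := c2 _ inferInstance c
    exact par H K hp ht ha i hi
  choose χ hχ using c3
  have cyc : ∀ v : P022D.PA.L P U C, ∃ c : P, c • (Submodule.Quotient.mk χ : P022D.PA.L P U C) =
      e • v := fun v => by
    obtain ⟨x, rfl⟩ := Submodule.Quotient.mk_surjective _ v
    choose c hc using fun n => Submodule.mem_span_singleton.1 (hχ n (x n))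
    obtain ⟨c', hc'⟩ := lim P U c
    refine ⟨c', ?_⟩
    rw [← smu P U C c c' hc' χ, ← smu P U C δ e c1 x]
    exact congrArg _ (funext hc)
  have hm : (m (ty X.τl (η.comap (algebraMap S₀ S))) : ℕ∞) ≤
      ln (η.comap X.ψ) (P022D.PA.L P U (M ig)) :=
    le_trans (le_mul_of_one_le_right' (Order.one_le_iff_ne_zero.2 ((K.ne _ _).2 ha)))
      (W.comb _ (K.add H _ le0) _ hJ)
  have h8 : ln (η.comap X.ψ) (P022D.PA.L P U (M ig)) ≤
      ln (η.comap X.ψ) (P ⧸ (An U C ⊔ Ideal.span {X.π})) := by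
    have := (len P (η.comap X.ψ) (P ⧸ (An U C ⊔ Ideal.span {X.π})) (P022D.PA.L P U (M ig)) PUnit
      (Submodule.liftQ _ (LinearMap.toSpanSingleton P _ (p (Submodule.Quotient.mk χ)))
        (sup_le (fun t ht => by
          rw [LinearMap.mem_ker, LinearMap.toSpanSingleton_apply, ← map_smul,
            Module.mem_annihilator.1 ht, map_zero])
          ((Ideal.span_singleton_le_iff_mem _).2 (by
            rw [LinearMap.mem_ker, LinearMap.toSpanSingleton_apply, ← map_smul]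
            exact (p2 _).2 ⟨_, rfl⟩)))) 0 (fun _ => rfl) fun y _ => by
        obtain ⟨v, rfl⟩ := p1 y
        obtain ⟨c, hc⟩ := cyc v
        exact ⟨e, he, Submodule.Quotient.mk c, by
          change c • p (Submodule.Quotient.mk χ) = _
          rw [← map_smul, hc, map_smul]⟩).1
    rwa [(len0 P (η.comap X.ψ) PUnit).1.2 fun x => ⟨1, h1, rfl⟩, add_zero] at this
  obtain ⟨e1, e2, e3⟩ := (etl S₀ S κ X.y X.α X.β X.𝔯 H.cov).1 η hp.r
  have eq : E'.map (algebraMap S₀ S) ⊔ X.𝔯 ⊔ Ideal.span {X.ψ X.π} =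
      (E' ⊔ Ideal.span {X.π₀}).map (algebraMap S₀ S) ⊔ X.𝔯 := by
    rw [Ideal.map_sup, Ideal.map_span, Set.image_singleton, sup_right_comm, H.pi]
  obtain ⟨h, a1, a2⟩ := core2 H.pur H.tf η hp.le (pm_t H hp) F.gal.1
    (b := E'.map (algebraMap S₀ S) ⊔ X.𝔯)
    (fun s hs => by
      obtain ⟨k, b1, b2⟩ := F.gal.2 s hs
      exact ⟨k, fun c => b1 (hp.le c), b2⟩)
    (H.tE.trans (sup_le_sup_right (Ideal.map_mono F.le) _)) (ha (K.pi _))
    (by
      rw [eq]
      exact (e2 (fun q c => by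
        obtain ⟨i, hi⟩ := W.sep _ q η hp ha c
        exact par H K hp ht ha i hi) _).trans (W.len _ ht (q3.trans q5)))
    (hm.trans h8) fun t ht' => by
      obtain ⟨k, b1, b2⟩ := F.reg H K hπ (t • Submodule.Quotient.mk χ) (by
        rw [smul_smul, Module.mem_annihilator.1 ht'])
      refine ⟨k * e, fun c => ?_, Module.mem_annihilator.2 fun v => ?_⟩
      · exact ((inferInstance : (η.comap X.ψ).IsPrime).mem_or_mem c).elim
          (fun c => b1 (le0 c)) he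
      · obtain ⟨c, hc⟩ := cyc v
        have : k * e * t = k * t * e := by ring
        rw [this, mul_smul, ← hc, smul_comm, mul_smul, b2, smul_zero]
  let T : Ideal S := cl (E'.map (algebraMap S₀ S) ⊔ X.𝔯) h
  have := last H hq ((Ideal.map_mono z2).trans (le_sup_left.trans s3)) (I := T)
    (fun s hs => Ideal.mem_sup_right (Ideal.mul_mem_left _ _ hs)) fun t ht => by
      obtain ⟨k, b1, b2⟩ := e3 E' h t a1 ht
      exact q4 ((q1.mem_or_mem (q3 b2)).resolve_left fun c => b1 (q5 c))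
  intro t ht
  rw [← s4]
  exact this (a2 t ht)

end

end Vale.Agent.P022G.Pt
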