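import Vale.Agent.P022G.Pt.Defs
import Vale.Agent.P022G.Kerf

/-!
# P022G: the colon property `Col` for power series rings, linear relations, composites
-/

set_option linter.all false

noncomputable section

namespace Vale.Agent.P022G.Pt

section Abs
variable {P R S : Type} [CommRing P] [CommRing R] [CommRing S]

/-- the saturation of `Y` at the prime `𝔮` -/
def sat (𝔮 : Ideal S) (hq : 𝔮.IsPrime) (Y : Ideal S) : Ideal S where
  carrier := {s | ∃ h ∉ 𝔮, h * s ∈ Y}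
  add_mem' := by
    rintro a b ⟨h, hh, ha⟩ ⟨k, hk, hb⟩
    refine ⟨h * k, fun hm => (hq.mem_or_mem hm).elim hh hk, ?_⟩
    have : h * k * (a + b) = k * (h * a) + h * (k * b) := by ring
    rw [this]
    exact Y.add_mem (Y.mul_mem_left _ ha) (Y.mul_mem_left _ hb)
  zero_mem' := ⟨1, (Ideal.ne_top_iff_one _).1 hq.ne_top, by simp⟩
  smul_mem' := by
    rintro c a ⟨h, hh, ha⟩
    refine ⟨h, hh, ?_⟩
    have : h * (c • a) = c * (h * a) := by rw [smul_eq_mul]; ring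
    rw [this]
    exact Y.mul_mem_left _ ha

theorem mem_sat {𝔮 : Ideal S} {hq : 𝔮.IsPrime} {Y : Ideal S} {s : S} :
    s ∈ sat 𝔮 hq Y ↔ ∃ h ∉ 𝔮, h * s ∈ Y := Iff.rfl

theorem lc_iff {𝔮 : Ideal S} (hq : 𝔮.IsPrime) {X Y : Ideal S} : Lc 𝔮 X Y ↔ X ≤ sat 𝔮 hq Y :=
  Iff.rfl

theorem le_sat {𝔮 : Ideal S} (hq : 𝔮.IsPrime) (Y : Ideal S) : Y ≤ sat 𝔮 hq Y := fun s hs =>
  ⟨1, (Ideal.ne_top_iff_one _).1 hq.ne_top, by rwa [one_mul]⟩

theorem sat_le {𝔮 : Ideal S} (hq : 𝔮.IsPrime) {X Y : Ideal S} (h : X ≤ sat 𝔮 hq Y) :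
    sat 𝔮 hq X ≤ sat 𝔮 hq Y := by
  rintro s ⟨a, ha, hs⟩
  obtain ⟨b, hb, h2⟩ := h hs
  exact ⟨b * a, fun hm => (hq.mem_or_mem hm).elim hb ha, by rwa [mul_assoc]⟩

theorem lc_of_le {𝔮 : Ideal S} (hq : 𝔮.IsPrime) {X Y : Ideal S} (h : X ≤ Y) : Lc 𝔮 X Y :=
  (lc_iff hq).2 (h.trans (le_sat hq Y))

theorem lc_trans {𝔮 : Ideal S} (hq : 𝔮.IsPrime) {X Y Z : Ideal S} (h : Lc 𝔮 X Y)
    (k : Lc 𝔮 Y Z) : Lc 𝔮 X Z :=
  (lc_iff hq).2 ((((lc_iff hq).1 h)).trans (sat_le hq ((lc_iff hq).1 k)))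

theorem lc_sup {𝔮 : Ideal S} (hq : 𝔮.IsPrime) {X X' Y : Ideal S} (h : Lc 𝔮 X Y)
    (k : Lc 𝔮 X' Y) : Lc 𝔮 (X ⊔ X') Y :=
  (lc_iff hq).2 (sup_le ((lc_iff hq).1 h) ((lc_iff hq).1 k))

theorem lc_mono {𝔮 : Ideal S} {X X' Y Y' : Ideal S} (h : Lc 𝔮 X Y) (hX : X' ≤ X) (hY : Y ≤ Y') :
    Lc 𝔮 X' Y' := fun s hs => by
  obtain ⟨a, ha, h1⟩ := h s (hX hs)
  exact ⟨a, ha, hY h1⟩

theorem lc_span {𝔮 : Ideal S} (hq : 𝔮.IsPrime) {A : Set S} {Y : Ideal S}
    (h : ∀ s ∈ A, ∃ k ∉ 𝔮, k * s ∈ Y) : Lc 𝔮 (Ideal.span A) Y :=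
  (lc_iff hq).2 (Ideal.span_le.2 h)

theorem lc_map {𝔮 : Ideal S} (hq : 𝔮.IsPrime) (f : R →+* S) {X Y : Ideal R}
    (h : Lc (𝔮.comap f) X Y) : Lc 𝔮 (X.map f) (Y.map f) := by
  refine (lc_iff hq).2 (Ideal.map_le_iff_le_comap.2 fun s hs => ?_)
  obtain ⟨a, ha, h1⟩ := h s hs
  exact ⟨f a, ha, by rw [← map_mul]; exact Ideal.mem_map_of_mem f h1⟩

theorem le_cl (a : Ideal P) (t : P) : a ≤ cl a t := fun x hx => mem_cl.2 (a.mul_mem_left t hx)

theorem col_mono {ψ : P →+* S} {𝔞 𝔞' : Ideal P} {𝔱 𝔮 : Ideal S} (h : Col ψ 𝔞 𝔱 𝔮)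
    (ha : 𝔞 ≤ 𝔞') : Col ψ 𝔞' 𝔱 𝔮 := fun a h1 => h a (ha.trans h1)

theorem col_anti {ψ : P →+* S} {𝔞 : Ideal P} {𝔱 𝔮 𝔮' : Ideal S} (h : Col ψ 𝔞 𝔱 𝔮)
    (hq : 𝔮' ≤ 𝔮) : Col ψ 𝔞 𝔱 𝔮' := fun a h1 t s hs => by
  obtain ⟨k, hk, h2⟩ := h a h1 t s hs
  exact ⟨k, fun h3 => hk (hq h3), h2⟩

/-- composition -/
theorem col_comp {ψ : P →+* R} {φ : R →+* S} {𝔞 : Ideal P} {𝔱 : Ideal R} {𝔟 : Ideal R}
    {𝔲 𝔮 : Ideal S} (hq : 𝔮.IsPrime) (h1 : Col ψ 𝔞 𝔱 (𝔮.comap φ)) (h2 : Col φ 𝔟 𝔲 𝔮)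
    (hb : 𝔟 ≤ 𝔞.map ψ ⊔ 𝔱) : Col (φ.comp ψ) 𝔞 (𝔱.map φ ⊔ 𝔲) 𝔮 := by
  intro a ha t s hs
  have e : ∀ b : Ideal P, b.map (φ.comp ψ) ⊔ (𝔱.map φ ⊔ 𝔲) = (b.map ψ ⊔ 𝔱).map φ ⊔ 𝔲 := by
    intro b
    rw [Ideal.map_sup, Ideal.map_map, sup_assoc]
  rw [e] at hs
  rw [e]
  have h3 : s ∈ sat 𝔮 hq ((cl (a.map ψ ⊔ 𝔱) (ψ t)).map φ ⊔ 𝔲) :=
    h2 (a.map ψ ⊔ 𝔱) (hb.trans (sup_le_sup_right (Ideal.map_mono ha) _)) (ψ t) s hs
  have h4 : Lc (𝔮.comap φ) (cl (a.map ψ ⊔ 𝔱) (ψ t)) ((cl a t).map ψ ⊔ 𝔱) :=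
    fun r hr => h1 a ha t r (mem_cl.1 hr)
  exact sat_le hq ((lc_iff hq).1 (lc_sup hq (lc_mono (lc_map hq φ h4) le_rfl le_sup_left)
    (lc_of_le hq le_sup_right))) h3

/-- change of the ideal of relations, locally at `𝔮` and modulo `𝔞` -/
theorem col_lc {ψ : P →+* S} {𝔞 : Ideal P} {𝔱 𝔱' 𝔮 : Ideal S} (hq : 𝔮.IsPrime)
    (h : Col ψ 𝔞 𝔱 𝔮) (h1 : Lc 𝔮 𝔱 (𝔞.map ψ ⊔ 𝔱')) (h2 : Lc 𝔮 𝔱' (𝔞.map ψ ⊔ 𝔱)) :
    Col ψ 𝔞 𝔱' 𝔮 := by
  intro a ha t s hs
  have k : ∀ (b : Ideal P) (u v : Ideal S), 𝔞 ≤ b → Lc 𝔮 u (𝔞.map ψ ⊔ v) →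
      Lc 𝔮 (b.map ψ ⊔ u) (b.map ψ ⊔ v) := fun b u v hb huv =>
    lc_sup hq (lc_of_le hq le_sup_left)
      (lc_mono huv le_rfl (sup_le_sup_right (Ideal.map_mono hb) _))
  obtain ⟨x, hx, h3⟩ := k a 𝔱' 𝔱 ha h2 _ hs
  obtain ⟨y, hy, h4⟩ := h a ha t (x * s) (by rwa [mul_left_comm])
  obtain ⟨z, hz, h5⟩ := k (cl a t) 𝔱 𝔱' (ha.trans (le_cl a t)) h1 _ h4
  refine ⟨z * (y * x), fun hm => (hq.mem_or_mem hm).elim hz fun hm =>
    (hq.mem_or_mem hm).elim hy hx, ?_⟩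
  rwa [mul_assoc, mul_assoc]

/-- transport along a surjection of the target -/
theorem col_surj {ψ : P →+* R} (φ : R →+* S) (hφ : Function.Surjective φ) {𝔞 : Ideal P}
    {𝔱 𝔮 : Ideal S} : Col (φ.comp ψ) 𝔞 𝔱 𝔮 ↔ Col ψ 𝔞 (𝔱.comap φ) (𝔮.comap φ) := by
  have e : ∀ b : Ideal P, (b.map (φ.comp ψ) ⊔ 𝔱).comap φ = b.map ψ ⊔ 𝔱.comap φ := by
    intro b
    have h1 : b.map (φ.comp ψ) ⊔ 𝔱 = (b.map ψ ⊔ 𝔱.comap φ).map φ := by
      rw [Ideal.map_sup, Ideal.map_map, Ideal.map_comap_of_surjective φ hφ]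
    rw [h1, Ideal.comap_map_of_surjective φ hφ]
    refine sup_eq_left.2 (le_trans ?_ le_sup_right)
    exact Ideal.comap_mono bot_le
  constructor
  · intro h a ha t s hs
    rw [← e, Ideal.mem_comap, map_mul] at hs
    obtain ⟨k, hk, h2⟩ := h a ha t (φ s) hs
    obtain ⟨k, rfl⟩ := hφ k
    refine ⟨k, hk, ?_⟩
    rwa [← e, Ideal.mem_comap, map_mul]
  · intro h a ha t s hs
    obtain ⟨s, rfl⟩ := hφ s
    obtain ⟨k, hk, h2⟩ := h a ha t s (by rwa [← e, Ideal.mem_comap, map_mul])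
    rw [← e, Ideal.mem_comap, map_mul] at h2
    exact ⟨φ k, hk, h2⟩

/-- transport along an isomorphism of the target -/
theorem col_equiv {ψ : P →+* R} {ψ' : P →+* S} (e : R ≃+* S) (he : ∀ p, e (ψ p) = ψ' p)
    {𝔞 : Ideal P} {𝔱 : Ideal R} {𝔮 : Ideal S} (h : Col ψ 𝔞 𝔱 (𝔮.comap (e : R →+* S))) :
    Col ψ' 𝔞 (𝔱.map (e : R →+* S)) 𝔮 := by
  have h1 : ψ' = (e : R →+* S).comp ψ := RingHom.ext fun p => (he p).symm
  rw [h1, col_surj (e : R →+* S) e.surjective,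
    Ideal.comap_map_of_bijective (e : R →+* S) e.bijective]
  exact h

/-- transport along an isomorphism of the source -/
theorem col_src {ψ : R →+* S} (e : P →+* R) (he : Function.Surjective e) {𝔞 : Ideal P}
    (hk : RingHom.ker e ≤ 𝔞) {𝔱 𝔮 : Ideal S} (h : Col ψ (𝔞.map e) 𝔱 𝔮) :
    Col (ψ.comp e) 𝔞 𝔱 𝔮 := by
  intro a ha t s hs
  rw [← Ideal.map_map] at hs
  obtain ⟨k, hk', h2⟩ := h (a.map e) (Ideal.map_mono ha) (e t) s hs
  refine ⟨k, hk', ?_⟩
  rw [← Ideal.map_map]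
  suffices H : cl (a.map e) (e t) ≤ (cl a t).map e from
    (sup_le_sup_right (Ideal.map_mono (f := ψ) H) 𝔱 :) h2
  intro r hr
  obtain ⟨r, rfl⟩ := he r
  refine Ideal.mem_map_of_mem e (mem_cl.2 ?_)
  have h3 : t * r ∈ (a.map e).comap e := by
    rw [Ideal.mem_comap, map_mul]
    exact mem_cl.1 hr
  rw [Ideal.comap_map_of_surjective e he] at h3
  exact (sup_le le_rfl (hk.trans ha)) h3

end Abs

section Ps
variable {R : Type} [CommRing R] [IsNoetherianRing R] {σ : Type}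

/-- the extension of an ideal to the power series ring, by coefficients -/
theorem mem_map_C (a : Ideal R) (s : MvPowerSeries σ R) :
    s ∈ a.map (MvPowerSeries.C : R →+* MvPowerSeries σ R) ↔ ∀ e, MvPowerSeries.coeff e s ∈ a := by
  classical
  constructor
  · intro hs e
    have h1 : a.map (MvPowerSeries.C : R →+* MvPowerSeries σ R) ≤
        RingHom.ker (MvPowerSeries.map (σ := σ) (Ideal.Quotient.mk a)) := by
      refine Ideal.map_le_iff_le_comap.2 fun r hr => ?_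
      rw [Ideal.mem_comap, RingHom.mem_ker, MvPowerSeries.map_C,
        Ideal.Quotient.eq_zero_iff_mem.2 hr, map_zero]
    have h2 := congrArg (MvPowerSeries.coeff e) (RingHom.mem_ker.1 (h1 hs))
    rw [MvPowerSeries.coeff_map, map_zero] at h2
    exact Ideal.Quotient.eq_zero_iff_mem.1 h2
  · intro h
    obtain ⟨n, g, hg⟩ := Submodule.fg_iff_exists_fin_generating_family.1
      (IsNoetherian.noetherian (a : Submodule R R))
    have h1 : ∀ e, ∃ c : Fin n → R, ∑ i, c i • g i = MvPowerSeries.coeff e s := by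
      intro e
      refine (Submodule.mem_span_range_iff_exists_fun R).1 ?_
      rw [hg]
      exact h e
    choose c hc using h1
    have h2 : s = ∑ i, (show MvPowerSeries σ R from fun e => c e i) * MvPowerSeries.C (g i) := by
      ext e
      rw [map_sum, ← hc e]
      refine Finset.sum_congr rfl fun i _ => ?_
      rw [MvPowerSeries.coeff_mul_C]
      rfl
    rw [h2]
    refine Ideal.sum_mem _ fun i _ => Ideal.mul_mem_left _ _ (Ideal.mem_map_of_mem _ ?_)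
    have : g i ∈ Submodule.span R (Set.range g) := Submodule.subset_span ⟨i, rfl⟩
    rwa [hg] at this

theorem cl_C (a : Ideal R) (t : R) (s : MvPowerSeries σ R)
    (h : MvPowerSeries.C t * s ∈ a.map (MvPowerSeries.C : R →+* MvPowerSeries σ R)) :
    s ∈ (cl a t).map (MvPowerSeries.C : R →+* MvPowerSeries σ R) := by
  rw [mem_map_C] at h ⊢
  intro e
  have := h e
  rwa [MvPowerSeries.coeff_C_mul] at this

/-- **power series rings are flat** -/
theorem col_ps (𝔞 : Ideal R) {𝔮 : Ideal (MvPowerSeries σ R)} (hq : 𝔮 ≠ ⊤) :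
    Col (MvPowerSeries.C : R →+* MvPowerSeries σ R) 𝔞 ⊥ 𝔮 := by
  intro a _ t s hs
  rw [sup_bot_eq] at hs ⊢
  exact ⟨1, (Ideal.ne_top_iff_one _).1 hq, by rw [one_mul]; exact cl_C a t s hs⟩

theorem mem_map_C1 (a : Ideal R) (s : PowerSeries R) :
    s ∈ a.map (PowerSeries.C : R →+* PowerSeries R) ↔ ∀ n, PowerSeries.coeff n s ∈ a := by
  refine (mem_map_C (σ := Unit) a s).trans ⟨fun h n => h _, fun h e => ?_⟩
  have := h (e ())
  rwa [PowerSeries.coeff_def (s := e) rfl] at this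

theorem ker_poly (f : Polynomial R) (b : Ideal R) : ∃ J : ℕ, ∀ g : PowerSeries R,
    (f : PowerSeries R) * g ∈ b.map (PowerSeries.C : R →+* PowerSeries R) →
      PowerSeries.C (f.leadingCoeff ^ J) * g ∈ b.map (PowerSeries.C : R →+* PowerSeries R) := by
  obtain ⟨J, hJ⟩ := _root_.P022G.Kerf.seq (N := R ⧸ b) f
  refine ⟨J, fun g hg => ?_⟩
  rw [mem_map_C1] at hg ⊢
  intro i
  have h1 := hJ (fun k => Ideal.Quotient.mk b (PowerSeries.coeff k g)) (fun m => ?_) i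
  · rw [PowerSeries.coeff_C_mul, ← Ideal.Quotient.eq_zero_iff_mem, ← h1]
    rfl
  · have h2 := Ideal.Quotient.eq_zero_iff_mem.2 (hg m)
    rw [PowerSeries.coeff_mul, Finset.Nat.sum_antidiagonal_eq_sum_range_succ_mk, map_sum] at h2
    rw [← h2]
    refine Finset.sum_congr rfl fun j _ => ?_
    rw [Polynomial.coeff_coe]
    rfl

/-- **one polynomial relation** whose leading coefficient is a unit at `𝔮` -/
theorem col_poly (𝔞 : Ideal R) (f : Polynomial R) {𝔮 : Ideal (PowerSeries R)} (hq : 𝔮.IsPrime)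
    (hc : PowerSeries.C f.leadingCoeff ∉ 𝔮) :
    Col (PowerSeries.C : R →+* PowerSeries R) 𝔞 (Ideal.span {(f : PowerSeries R)}) 𝔮 := by
  intro a _ t s hs
  obtain ⟨u, hu, v, hv, huv⟩ := Submodule.mem_sup.1 hs
  obtain ⟨g, rfl⟩ := Ideal.mem_span_singleton'.1 hv
  obtain ⟨J, hJ⟩ := ker_poly f (a ⊔ Ideal.span {t})
  have h1 : (f : PowerSeries R) * g ∈
      (a ⊔ Ideal.span {t}).map (PowerSeries.C : R →+* PowerSeries R) := by
    have e : (f : PowerSeries R) * g = PowerSeries.C t * s - u := by rw [← huv]; ring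
    rw [e]
    exact Ideal.sub_mem _ (Ideal.mul_mem_right _ _ (Ideal.mem_map_of_mem _
      (Ideal.mem_sup_right (Ideal.mem_span_singleton_self t)))) (Ideal.map_mono le_sup_left hu)
  have h2 := hJ g h1
  rw [Ideal.map_sup, Ideal.map_span, Set.image_singleton] at h2
  obtain ⟨u', hu', v', hv', huv'⟩ := Submodule.mem_sup.1 h2
  obtain ⟨g', rfl⟩ := Ideal.mem_span_singleton'.1 hv'
  refine ⟨PowerSeries.C (f.leadingCoeff ^ J), fun h => hc ?_, ?_⟩
  · rw [map_pow] at h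
    exact hq.mem_of_pow_mem _ h
  · have h3 : PowerSeries.C t * (PowerSeries.C (f.leadingCoeff ^ J) * s - g' * f) ∈
        a.map (PowerSeries.C : R →+* PowerSeries R) := by
      have e : PowerSeries.C t * (PowerSeries.C (f.leadingCoeff ^ J) * s - g' * f) =
          PowerSeries.C (f.leadingCoeff ^ J) * u + f * u' := by
        linear_combination (-PowerSeries.C (f.leadingCoeff ^ J)) * huv - (f : PowerSeries R) * huv'
      rw [e]
      exact Ideal.add_mem _ (Ideal.mul_mem_left _ _ hu) (Ideal.mul_mem_left _ _ hu')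
    have h4 : PowerSeries.C (f.leadingCoeff ^ J) * s - g' * f ∈
        (cl a t).map (PowerSeries.C : R →+* PowerSeries R) := cl_C (σ := Unit) a t _ h3
    have e : PowerSeries.C (f.leadingCoeff ^ J) * s =
        (PowerSeries.C (f.leadingCoeff ^ J) * s - g' * f) + g' * f := by ring
    rw [e]
    exact Submodule.add_mem_sup h4 (Ideal.mul_mem_left _ _ (Ideal.mem_span_singleton_self _))

/-- **one linear relation** `c z = x` -/
theorem col_lin (𝔞 : Ideal R) (c x : R) {𝔮 : Ideal (PowerSeries R)} (hq : 𝔮.IsPrime)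
    (hc : PowerSeries.C c ∉ 𝔮) : Col (PowerSeries.C : R →+* PowerSeries R) 𝔞
      (Ideal.span {PowerSeries.C c * PowerSeries.X - PowerSeries.C x}) 𝔮 := by
  have h0 : c ≠ 0 := by
    rintro rfl
    exact hc (by rw [map_zero]; exact 𝔮.zero_mem)
  have h := col_poly 𝔞 (Polynomial.C c * Polynomial.X + Polynomial.C (-x)) hq
    (by rwa [Polynomial.leadingCoeff_linear h0])
  have e : ((Polynomial.C c * Polynomial.X + Polynomial.C (-x) : Polynomial R) : PowerSeries R) =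
      PowerSeries.C c * PowerSeries.X - PowerSeries.C x := by
    rw [Polynomial.coe_add, Polynomial.coe_mul, Polynomial.coe_C, Polynomial.coe_C,
      Polynomial.coe_X, map_neg, sub_eq_add_neg]
  rwa [e] at h

end Ps

section Fam
variable {R : Type} [CommRing R] [IsNoetherianRing R]

/-- the relations `c i * z i = x i` for `i` in `T` -/
def lin {σ : Type} (T : Set σ) (c x : σ → R) : Ideal (MvPowerSeries σ R) :=
  Ideal.span ((fun i => MvPowerSeries.C (c i) * MvPowerSeries.X i - MvPowerSeries.C (x i)) '' T)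

/-- **a family of linear relations**, the variables outside `T` stay free -/
theorem col_fam (σ : Type) [Finite σ] : ∀ (𝔞 : Ideal R) (T : Set σ) (c x : σ → R)
    (𝔮 : Ideal (MvPowerSeries σ R)), 𝔮.IsPrime → (∀ i ∈ T, MvPowerSeries.C (c i) ∉ 𝔮) →
      Col (MvPowerSeries.C : R →+* MvPowerSeries σ R) 𝔞 (lin T c x) 𝔮 := by
  induction σ using Finite.induction_empty_option with
  | @of_equiv α β e ih =>
    intro 𝔞 T c x 𝔮 hq hc
    let E : MvPowerSeries α R ≃+* MvPowerSeries β R := (MvPowerSeries.renameEquiv R e).toRingEquiv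
    have hC : ∀ r : R, E (MvPowerSeries.C r) = MvPowerSeries.C r := fun r =>
      MvPowerSeries.rename_C _ r
    have hX : ∀ i, E (MvPowerSeries.X i) = MvPowerSeries.X (e i) := fun i =>
      MvPowerSeries.rename_X _ i
    have h := ih 𝔞 (e ⁻¹' T) (c ∘ e) (x ∘ e) (𝔮.comap (E : _ →+* _)) (Ideal.comap_isPrime _ _)
      (fun i hi h => hc (e i) hi (by rw [← hC]; exact h))
    have h2 := col_equiv E hC h
    have e2 : (lin (e ⁻¹' T) (c ∘ e) (x ∘ e)).map (E : _ →+* _) = lin T c x := by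
      rw [lin, lin, Ideal.map_span, Set.image_image]
      congr 1
      ext s
      constructor
      · rintro ⟨i, hi, rfl⟩
        refine ⟨e i, hi, ?_⟩
        simp only [RingHom.coe_coe, map_sub, map_mul, hC, hX, Function.comp]
      · rintro ⟨i, hi, rfl⟩
        obtain ⟨i, rfl⟩ := e.surjective i
        refine ⟨i, hi, ?_⟩
        simp only [RingHom.coe_coe, map_sub, map_mul, hC, hX, Function.comp]
    rwa [e2] at h2
  | h_empty =>
    intro 𝔞 T c x 𝔮 hq hc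
    have : lin T c x = ⊥ := by
      rw [lin, Set.eq_empty_of_isEmpty T, Set.image_empty, Ideal.span_empty]
    rw [this]
    exact col_ps 𝔞 hq.ne_top
  | @h_option α _ ih =>
    intro 𝔞 T c x 𝔮 hq hc
    let E : PowerSeries (MvPowerSeries α R) ≃+* MvPowerSeries (Option α) R :=
      (MvPowerSeries.optionEquivLeft α R).toRingEquiv.symm
    have hC : ∀ r : R, E (PowerSeries.C (MvPowerSeries.C r)) = MvPowerSeries.C r := fun r =>
      (RingEquiv.symm_apply_eq _).2 (MvPowerSeries.optionEquivLeft_C r).symm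
    have hX : ∀ i, E (PowerSeries.C (MvPowerSeries.X i)) = MvPowerSeries.X (some i) := fun i =>
      (RingEquiv.symm_apply_eq _).2 (MvPowerSeries.optionEquivLeft_X_some i).symm
    have hN : E PowerSeries.X = MvPowerSeries.X none :=
      (RingEquiv.symm_apply_eq _).2 MvPowerSeries.optionEquivLeft_X_none.symm
    have hq1 : (𝔮.comap
        (E : PowerSeries (MvPowerSeries α R) →+* MvPowerSeries (Option α) R)).IsPrime :=
      Ideal.comap_isPrime _ _
    have h1 := ih 𝔞 (some ⁻¹' T) (c ∘ some) (x ∘ some)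
      ((𝔮.comap (E : PowerSeries (MvPowerSeries α R) →+* MvPowerSeries (Option α) R)).comap
        (PowerSeries.C : MvPowerSeries α R →+* PowerSeries (MvPowerSeries α R)))
      (Ideal.comap_isPrime _ _)
      (fun i hi h => hc (some i) hi (by rw [← hC]; exact h))
    have e1 : ((lin (some ⁻¹' T) (c ∘ some) (x ∘ some)).map
        (PowerSeries.C : MvPowerSeries α R →+* PowerSeries (MvPowerSeries α R))).map
        (E : PowerSeries (MvPowerSeries α R) →+* MvPowerSeries (Option α) R) =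
        lin (T \ {none}) c x := by
      rw [lin, lin, Ideal.map_span, Ideal.map_span, Set.image_image, Set.image_image]
      congr 1
      ext s
      constructor
      · rintro ⟨i, hi, rfl⟩
        refine ⟨some i, ⟨hi, by simp⟩, ?_⟩
        simp only [RingHom.coe_coe, map_sub, map_mul, hC, hX, Function.comp]
      · rintro ⟨i, ⟨hi, hn⟩, rfl⟩
        rcases i with _ | i
        · exact absurd rfl hn
        refine ⟨i, hi, ?_⟩
        simp only [RingHom.coe_coe, map_sub, map_mul, hC, hX, Function.comp]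
    by_cases hn : none ∈ T
    · have h2 := col_lin (R := MvPowerSeries α R) ⊥ (MvPowerSeries.C (c none))
        (MvPowerSeries.C (x none)) hq1 (fun h => hc none hn (by rw [← hC]; exact h))
      have h3 := col_equiv (ψ' := MvPowerSeries.C) E hC (col_comp hq1 h1 h2 bot_le)
      rw [Ideal.map_sup, e1, Ideal.map_span, Set.image_singleton] at h3
      have e3 : lin (T \ {none}) c x ⊔ Ideal.span
          {(E : PowerSeries (MvPowerSeries α R) →+* MvPowerSeries (Option α) R) (PowerSeries.C (MvPowerSeries.C (c none)) * PowerSeries.X -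
            PowerSeries.C (MvPowerSeries.C (x none)))} = lin T c x := by
        have e4 : T = (T \ {none}) ∪ {none} := by
          rw [Set.diff_union_of_subset (Set.singleton_subset_iff.2 hn)]
        conv_rhs => rw [e4]
        rw [lin, lin, Set.image_union, Ideal.span_union, Set.image_singleton]
        simp only [RingHom.coe_coe, map_sub, map_mul, hC, hN]
      rwa [e3] at h3
    · have h2 := col_ps (R := MvPowerSeries α R) (σ := Unit) ⊥ hq1.ne_top
      have h3 := col_equiv (ψ' := MvPowerSeries.C) E hC (col_comp hq1 h1 h2 bot_le)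
      rw [sup_bot_eq] at h3
      have e3 : T \ {none} = T := Set.diff_singleton_eq_self hn
      rw [e3] at e1
      rw [← e1]
      exact h3

end Fam

end Vale.Agent.P022G.Pt
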