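import Vale.Agent.P022G.Pt.Defs

/-!
# P022G, patching at a curve: the hypotheses on the rings, weak form
-/

set_option linter.all false

open IsLocalRing Filter

noncomputable section

namespace Vale.Agent.P022G.Pt

open Vale.Agent.P022D.PA
open Vale.Agent.P022D.Core (ty)

/-- purity at the primes inside `𝔭` -/
def Pur {P S : Type} [CommRing P] [CommRing S] (ψ : P →+* S) (𝔞 : Ideal P) (𝔱 𝔭 : Ideal S) :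
    Prop :=
  ∀ 𝔮 : Ideal S, 𝔮.IsPrime → 𝔮 ≤ 𝔭 → 𝔱 ≤ 𝔮 → ∀ a : Ideal P, 𝔞 ≤ a → ∀ (t : P) (h : S), h ∉ 𝔮 →
    h * ψ t ∈ a.map ψ ⊔ 𝔱 → ∃ h₀ : P, ψ h₀ ∉ 𝔮 ∧ h₀ * t ∈ a

/-- `π` stays regular -/
def Tf {P S : Type} [CommRing P] [CommRing S] (ψ : P →+* S) (𝔞 : Ideal P) (𝔱 𝔭 : Ideal S)
    (π : P) : Prop :=
  ∀ 𝔮 : Ideal S, 𝔮.IsPrime → 𝔮 ≤ 𝔭 → 𝔱 ≤ 𝔮 → ∀ a : Ideal P, 𝔞 ≤ a →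
    (∀ t : P, π * t ∈ a → ∃ h₀ : P, ψ h₀ ∉ 𝔮 ∧ h₀ * t ∈ a) →
    ∀ s : S, ψ π * s ∈ a.map ψ ⊔ 𝔱 → ∃ h ∉ 𝔮, h * s ∈ a.map ψ ⊔ 𝔱

theorem Col.pur {P S : Type} [CommRing P] [CommRing S] {ψ : P →+* S} {𝔞 : Ideal P}
    {𝔱 𝔭 : Ideal S} [𝔭.IsPrime] (H : Col ψ 𝔞 𝔱 𝔭) : Pur ψ 𝔞 𝔱 𝔭 := by
  intro 𝔮 hq h1 h2 a ha t h hh ht
  obtain ⟨h', a1, a2⟩ := H a ha t h (by rwa [mul_comm])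
  by_contra c
  have : (cl a t).map ψ ⊔ 𝔱 ≤ 𝔮 := sup_le (Ideal.map_le_iff_le_comap.2 fun x hx => by
    by_contra k
    exact c ⟨x, k, by rw [mul_comm]; exact hx⟩) h2
  exact hh ((hq.mem_or_mem (this a2)).resolve_left fun k => a1 (h1 k))

theorem Col.tf {P S : Type} [CommRing P] [IsNoetherianRing P] [CommRing S] {ψ : P →+* S}
    {𝔞 : Ideal P} {𝔱 𝔭 : Ideal S} [𝔭.IsPrime] (H : Col ψ 𝔞 𝔱 𝔭) (π : P) : Tf ψ 𝔞 𝔱 𝔭 π := by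
  intro 𝔮 hq h1 h2 a ha hr s hs
  obtain ⟨h', a1, a2⟩ := H a ha π s hs
  obtain ⟨z, hz, w, hw, e⟩ := Submodule.mem_sup.1 a2
  have key : ∀ z ∈ (cl a π).map ψ, ∃ h ∉ 𝔮, h * z ∈ a.map ψ := by
    intro z hz
    refine Submodule.span_induction (p := fun z _ => ∃ h ∉ 𝔮, h * z ∈ a.map ψ) ?_ ?_ ?_ ?_ hz
    · rintro _ ⟨t, ht, rfl⟩
      obtain ⟨h, b1, b2⟩ := hr t ht
      exact ⟨ψ h, b1, by rw [← map_mul]; exact Ideal.mem_map_of_mem _ b2⟩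
    · exact ⟨1, (Ideal.ne_top_iff_one _).1 hq.ne_top, by simp⟩
    · rintro x y - - ⟨h, b1, b2⟩ ⟨k, c1, c2⟩
      refine ⟨h * k, fun c => (hq.mem_or_mem c).elim b1 c1, ?_⟩
      have : h * k * (x + y) = k * (h * x) + h * (k * y) := by ring
      rw [this]
      exact add_mem (Ideal.mul_mem_left _ _ b2) (Ideal.mul_mem_left _ _ c2)
    · rintro c x - ⟨h, b1, b2⟩
      refine ⟨h, b1, ?_⟩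
      rw [smul_eq_mul, mul_left_comm]
      exact Ideal.mul_mem_left _ _ b2
  obtain ⟨h, b1, b2⟩ := key z hz
  refine ⟨h * h', fun c => (hq.mem_or_mem c).elim b1 fun k => a1 (h1 k), ?_⟩
  rw [mul_assoc, ← e, mul_add]
  exact add_mem (Ideal.mem_sup_left b2) (Ideal.mem_sup_right (Ideal.mul_mem_left _ _ hw))

section
variable {P S₀ S L κ : Type} [CommRing P] [CommRing S₀] [CommRing S] [Algebra S₀ S] [Fintype L]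
  (X : RD P S₀ S L κ)

/-- **the hypotheses on the rings** -/
structure RD.Ok2 : Prop where
  pr : X.𝔭.IsPrime
  cov : Cov S₀ S X.y X.α X.β X.𝔯
  tE : X.𝔱 ≤ X.E.map (algebraMap S₀ S) ⊔ X.𝔯
  tp : X.𝔱 ≤ X.𝔭
  ep : X.𝔢 ≤ X.p0
  pi : X.ψ X.π = algebraMap S₀ S X.π₀
  pur : Pur X.ψ X.𝔞 X.𝔱 X.𝔭
  tf : Tf X.ψ X.𝔞 X.𝔱 X.𝔭 X.π
  up : ∀ η : Ideal P, η.IsPrime → X.𝔞 ≤ η → η ≤ X.p0 → X.π ∈ η →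
    ∃ η' : Ideal S, η'.IsPrime ∧ η' ≤ X.𝔭 ∧ η.map X.ψ ⊔ X.𝔱 ≤ η' ∧
      ((X.a : ℕ) : WithBot ℕ∞) + ringKrullDim (P ⧸ η) ≤ ringKrullDim (S ⧸ η')
  gal0 : X.Gal X.E X.𝔢
  y0 : ∀ 𝔮, X.Pm 𝔮 → X.𝔢.map X.ψ ≤ 𝔮 → ∀ q, X.y q ∈ 𝔮 ∧ algebraMap S₀ S (X.α q) ∈ 𝔮 ∧
    algebraMap S₀ S (X.β q) ∈ 𝔮
  tau : ∀ 𝔮, X.Pm 𝔮 → ∀ l, (∀ u ∈ X.τP l, X.ψ u ∈ 𝔮) → ∀ u ∈ X.τl l, algebraMap S₀ S u ∈ 𝔮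
  dl : ∀ 𝔮, X.Pm 𝔮 → ∀ l, X.ψ (X.DP l) ∈ 𝔮 → algebraMap S₀ S (X.Dl l) ∈ 𝔮
  ij : ∀ 𝔮, X.Pm 𝔮 → X.ψ X.π ∈ 𝔮 → ∀ J,
    (X.IP J ≤ 𝔮.comap X.ψ ↔ X.IJ J ≤ 𝔮.comap (algebraMap S₀ S))
  dom : ∀ η, X.Tp η → ∀ 𝔮 : Ideal S₀, 𝔮.IsPrime → 𝔮 ≤ X.p1 → X.E ≤ 𝔮 → X.π₀ ∈ 𝔮 →
    X.IJ (ty X.τl η) ≤ 𝔮 → η ≤ 𝔮
  tyI : ∀ η, X.Tp η → X.IJ (ty X.τl η) ≤ η
  tr : ∀ η, X.Tp η → ∀ l, l ∉ ty X.τl η → X.Dl l ∉ η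

theorem RD.Ok.two [IsNoetherianRing P] {X : RD P S₀ S L κ} (h : X.Ok) : X.Ok2 :=
  haveI := h.pr
  ⟨h.pr, h.cov, h.tE, h.tp, h.ep, h.pi, h.col.pur, h.col.tf _, fun η a b c _ => h.up η a b c,
    h.gal0, h.y0, h.tau, h.dl, h.ij, h.dom, h.tyI, h.tr⟩

end

end Vale.Agent.P022G.Pt
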